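import Vale.Agent.P119.TF.Rho

/-!
# P119: TREES -> LINES for the two trees of a colliding pair (`helper384`)

`rep_pair`: the tree `node x y` is live at the time `τ`, its collision began before `τ`, and its root
is not exposed before `τ`.  The particles of `x` and `y` are replaced by their lines, all sources are
born at the exits; the two sources of the pair may have the same index.
-/

open MeasureTheory Filter Topology Set
open scoped ENNReal NNReal

noncomputable section

namespace Vale.Agent.P119.TF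

open KU M M.CTree RB TL

variable {Φ : E3 → ℝ} {ε : ℝ} {L : ℕ} {U : Set Src} {t τ : ℝ}
  {hΦ : IsPotential Φ} {hε : 0 < ε} {W W' : Finset Src} {x y : CTree}

theorem lvs_pair : lvs {x, y} = (node x y).leaves := by
  change _ = x.leaves ∪ y.leaves
  unfold lvs
  rw [biUnion_pair]

theorem ous_pair : ous {x, y} = outs x ∪ outs y := by
  unfold ous
  rw [biUnion_pair]

theorem rhoF_ext' (F : Set CTree) : rhoF Φ ε F (ext Φ ε) = ext Φ ε := funext rhoF_ext

/-- The partner of an unexposed particle is unexposed. -/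
theorem not_exp_of_partner {s : ℝ} (hl : live Φ ε L (W : Set Src) (node x y) τ)
    (hs : s < τ) (hsig : sig Φ ε (node x y) < τ) (hext : τ ≤ ext Φ ε (node x y))
    (hE : ∀ s < τ, ¬(Y Φ ε L hΦ hε).Exp W x.root s) : ¬(Y Φ ε L hΦ hε).Exp W y.root s := by
  intro he
  have h1 : max s (sig Φ ε (node x y)) < τ := max_lt hs hsig
  refine hE _ h1 ?_
  exact exp_partner (hl.anti h1.le (le_max_right _ _)) (h1.trans_le hext)
    (he.mono (le_max_left _ _))

variable {ι : Type*} [DecidableEq ι] {Wc : Finset ι → Set Src} {K J : Finset ι}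

/-- **TREES -> LINES for a colliding pair.** -/
theorem rep_pair (hC : CubeW Wc K) (hNI : NI Φ ε L Wc K t) (hJ : J ⊆ K) (i : CTree → ι)
    (hi : ∀ z ∈ outs x ∪ outs y, Idx Wc K (i z) (msrc Φ ε (ext Φ ε) z))
    (hpair : ∀ z ∈ outs x ∪ outs y, ∀ z' ∈ outs x ∪ outs y, z ≠ z' → i z = i z' →
      Disjoint z.leaves z'.leaves)
    (hW' : (W' : Set Src) = Wc J)
    (hl : U ∪ msrc Φ ε (ext Φ ε) '' (outs x ∪ outs y) = Wc J)
    (hd : Disjoint U (node x y).leaves) (hW : (W : Set Src) = U ∪ (node x y).leaves)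
    (h0 : ∀ a ∈ W, 0 ≤ a.1)
    (inj : InjOn (msrc Φ ε (ext Φ ε)) (outs x ∪ outs y))
    (fresh : ∀ z ∈ outs x ∪ outs y, msrc Φ ε (ext Φ ε) z ∉ U)
    (hT : live Φ ε L (W : Set Src) (node x y) τ) (hsig : sig Φ ε (node x y) < τ)
    (hext : τ ≤ ext Φ ε (node x y)) (hτ : τ ≤ t)
    (hE : ∀ s < τ, ¬(Y Φ ε L hΦ hε).Exp W x.root s) :
    Rep Φ ε L hΦ hε W W' (fs Φ ε (ext Φ ε) {x, y}) t := by
  have hok := hT.ok
  have hx := live_left hΦ hε W.finite_toSet hT
  have hy := live_right hΦ hε W.finite_toSet hT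
  have h1 : ext Φ ε x ≤ sig Φ ε (node x y) := hok.2.2.2.2.2.1.le
  have h2 : ext Φ ε y ≤ sig Φ ε (node x y) := hok.2.2.2.2.2.2.le
  have hx' := alive_anti hx h1 le_rfl
  have hy' := alive_anti hy h2 le_rfl
  rw [hW] at hx' hy'
  have key := rep_of_NI (Φ := Φ) (ε := ε) (L := L) (U := U) (F := {x, y}) (ρ := ext Φ ε) (t := t)
    (hΦ := hΦ) (hε := hε) (W := W) (W' := W') hC hNI hJ i
  rw [rhoF_ext', ous_pair, lvs_pair] at key
  refine key hi hpair hW' ?_ ((finite_singleton y).insert x) ?_ hd hW h0 inj fresh ?_ ?_ ?_ ?_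
  · unfold lwd
    rw [ous_pair]
    exact hl
  · rintro T (rfl | rfl) T' (rfl | rfl) hne
    · exact absurd rfl hne
    · exact hok.2.2.1
    · exact hok.2.2.1.symm
    · exact absurd rfl hne
  · rintro T (rfl | rfl)
    · exact hx'
    · exact hy'
  · exact fun T _ => Or.inl rfl
  · rintro T (rfl | rfl)
    · exact (h1.trans hsig.le).trans hτ
    · exact (h2.trans hsig.le).trans hτ
  · rintro T (rfl | rfl) s hs
    · exact hE s ((hs.trans_le h1).trans hsig)
    · exact not_exp_of_partner hT ((hs.trans_le h2).trans hsig) hsig hext hE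

end Vale.Agent.P119.TF
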