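import Vale.Agent.P119.TF.Rt
import Vale.Agent.P119.TL.Bad

/-!
# P119: TREES -> LINES, contacts and bad particles in the two worlds, for a forest (`helper384`)

Forest version of `TL/Bad.lean`.
-/

open MeasureTheory Filter Topology Set
open scoped ENNReal NNReal

noncomputable section

namespace Vale.Agent.P119.TF

open KU M M.CTree RB TL

variable {Φ : E3 → ℝ} {ε : ℝ} {L : ℕ} {U W : Set Src} {F : Set CTree} {r : CTree → ℝ} {t : ℝ}

theorem msrc_mem {x : CTree} (hx : x ∈ ous F) : msrc Φ ε r x ∈ lwd Φ ε r U F :=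
  Or.inr ⟨x, hx, rfl⟩

theorem mem_lwd {σ : Src} (hσ : σ ∈ U) : σ ∈ lwd Φ ε r U F := Or.inl hσ

theorem rt_inj (h : Setup Φ ε L U F r t) {a b : Src} (ha : a ∈ lwd Φ ε r U F)
    (hb : b ∈ lwd Φ ε r U F) (he : rt Φ ε r F a = rt Φ ε r F b) : a = b :=
  fs_root_inj h ha hb he

theorem exists_rt (h : Setup Φ ε L U F r t) {a : Src} (ha : a ∈ U ∪ lvs F) :
    ∃ b ∈ lwd Φ ε r U F, rt Φ ε r F b = a := by
  rcases ha with ha | ha
  · exact ⟨a, mem_lwd ha, rt_of_mem h ha⟩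
  · obtain ⟨x, hx, rfl⟩ := exists_ous ha
    exact ⟨_, msrc_mem hx, rt_msrc h hx⟩

/-- The statuses in the two worlds, from the birth of the source on. -/
theorem stat_rt (hΦ : IsPotential Φ) (hε : 0 < ε) (h : Setup Φ ε L U F r t) {a : Src} {s : ℝ}
    (hs : s ≤ t) (ha : a ∈ lwd Φ ε r U F) (has : a.1 ≤ s) :
    stat Φ ε L (U ∪ lvs F) (rt Φ ε r F a) s =
      (stat Φ ε L (lwd Φ ε r U F) a s).map (th Φ ε r F) := by
  rcases ha with ha | ⟨x, hx, rfl⟩
  · rw [rt_of_mem h ha]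
    exact stat_th hΦ hε h hs ha
  · rw [rt_msrc h hx]
    exact stat_out hΦ hε h hs hx has

/-! ### Contacts -/

/-- The live trees of `U ∪ lvs F` come from the world of lines, up to the representation at the
beginning of a collision. -/
theorem live_back (hΦ : IsPotential Φ) (hε : 0 < ε) (h : Setup Φ ε L U F r t) {a : Src} {s : ℝ}
    {X : CTree} (hs : s ≤ t) (ha : a ∈ lwd Φ ε r U F) (has : a.1 ≤ s)
    (hX : live Φ ε L (U ∪ lvs F) X s) (hXa : X.root = rt Φ ε r F a) :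
    ∃ Y, Y.root = a ∧ live Φ ε L (lwd Φ ε r U F) Y s ∧ st Φ ε Y s = st Φ ε X s := by
  have hW := lwd_finite h
  have hW' := wd_finite h
  have hal : (leaf a).leaves ⊆ lwd Φ ε r U F := by
    rintro σ rfl
    exact ha
  have hra := rt_birth_le hΦ hε h ha
  -- a tree which began before `s`
  have key : ∀ X₀ : CTree, X₀.root = rt Φ ε r F a → live Φ ε L (U ∪ lvs F) X₀ s →
      sig Φ ε X₀ < s → ∃ Y, Y.root = a ∧ live Φ ε L (lwd Φ ε r U F) Y s ∧
        st Φ ε Y s = st Φ ε X₀ s := by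
    intro X₀ hr hl hsig
    rcases has.lt_or_eq with h1 | h1
    · have h2 : max (sig Φ ε X₀) a.1 < s := max_lt hsig h1
      have h3 := hl.lives_of_lt h2 (le_max_left _ _)
      have h4 : stat Φ ε L (U ∪ lvs F) (rt Φ ε r F a) (max (sig Φ ε X₀) a.1) = some X₀ :=
        (stat_eq_some_iff hΦ hε hW').2 ⟨hr, h3⟩
      rw [stat_rt hΦ hε h (h2.le.trans hs) ha (le_max_right _ _), Option.map_eq_some_iff] at h4
      obtain ⟨Y, h5, rfl⟩ := h4
      rw [stat_eq_some_iff hΦ hε hW] at h5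
      have h6 := h5.2.sig_le.trans h2.le
      exact ⟨Y, h5.1, (live_th hΦ hε h hs h5.2.sub).2 ⟨hl, h6⟩,
        (th_st hΦ hε h h5.2.sub h6).symm⟩
    · -- the source is born at `s`
      subst h1
      rcases ha with ha | ⟨x, hx, rfl⟩
      · rw [rt_of_mem h ha] at hr
        have h2 := (root_birth_le_sig hΦ hε hl.ok).trans_lt hsig
        rw [hr] at h2
        exact absurd h2 (lt_irrefl _)
      · rw [rt_msrc h hx] at hr
        have h2 := (alive_iff_live hΦ hε hW').1 (h.alive x hx)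
        have h3 : sig Φ ε x < r x := by
          cases x with
          | leaf σ =>
            have h4 := (root_birth_le_sig hΦ hε hl.ok).trans_lt hsig
            rw [hr] at h4
            exact h4
          | node c d => exact (sig_lt_ext hΦ hε h2.1.ok).trans_le h2.2
        have h4 : X₀ = x := live_unique hΦ hε hW' hl h2.1 hr hsig h3
        subst h4
        refine ⟨leaf (msrc Φ ε r X₀), rfl, (live_th hΦ hε h hs hal).2 ⟨?_, le_rfl⟩, ?_⟩
        · rw [th_leaf_msrc h hx]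
          exact hl
        · rw [← th_st hΦ hε h hal (s := (msrc Φ ε r X₀).1) le_rfl, th_leaf_msrc h hx]
  rcases live_sig hΦ hε hW' hX with ⟨h1, h2⟩ | ⟨X₀, h1, h2, h3, h4⟩
  · -- the birth
    rw [hXa] at h1 h2
    have h3 : a.1 = s := le_antisymm has (h2 ▸ hra)
    have h5 : th Φ ε r F (leaf a) = leaf (rt Φ ε r F a) := by
      rcases ha with ha | ⟨x, hx, rfl⟩
      · rw [rt_of_mem h ha]
        exact fs_of_mem h ha
      · rw [rt_msrc h hx] at h2 ⊢
        rw [th_leaf_msrc h hx]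
        cases x with
        | leaf σ => rfl
        | node c d =>
          exfalso
          have h6 := (root_birth_le_sig hΦ hε (ok_out h hx)).trans_lt
            (sig_lt_ext hΦ hε (ok_out h hx))
          have h7 := h.le_r _ hx
          change r (node c d) = s at h3
          linarith
    refine ⟨leaf a, rfl, (live_th hΦ hε h hs hal).2 ⟨?_, has⟩, ?_⟩
    · rw [h5, ← h1]
      exact hX
    · rw [← th_st hΦ hε h hal (s := s) has, h5, ← h1]
  · obtain ⟨Y, h5, h6, h7⟩ := key X₀ (h1.trans hXa) h2 h3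
    exact ⟨Y, h5, h6, h7.trans h4⟩

/-- **Contacts in the two worlds.** -/
theorem mcon_th (hΦ : IsPotential Φ) (hε : 0 < ε) (h : Setup Φ ε L U F r t) {a b : Src} {s : ℝ}
    (hs : s ≤ t) (ha : a ∈ lwd Φ ε r U F) (hb : b ∈ lwd Φ ε r U F) (has : a.1 ≤ s)
    (hbs : b.1 ≤ s) : mcon Φ ε L (lwd Φ ε r U F) s a b ↔
      mcon Φ ε L (U ∪ lvs F) s (rt Φ ε r F a) (rt Φ ε r F b) := by
  constructor
  · rintro ⟨h0, Y, Y', h1, h2, h3, h4, h5⟩
    refine ⟨fun he => h0 (rt_inj h ha hb he), th Φ ε r F Y, th Φ ε r F Y', ?_, ?_,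
      ((live_th hΦ hε h hs h3.sub).1 h3).1, ((live_th hΦ hε h hs h4.sub).1 h4).1, ?_⟩
    · rw [th_root, h1]
    · rw [th_root, h2]
    · rw [th_st hΦ hε h h3.sub h3.sig_le, th_st hΦ hε h h4.sub h4.sig_le]
      exact h5
  · rintro ⟨h0, X, X', h1, h2, h3, h4, h5⟩
    obtain ⟨Y, k1, k2, k3⟩ := live_back hΦ hε h hs ha has h3 h1
    obtain ⟨Y', k1', k2', k3'⟩ := live_back hΦ hε h hs hb hbs h4 h2
    exact ⟨fun he => h0 (he ▸ rfl), Y, Y', k1, k1', k2, k2', by rw [k3, k3']; exact h5⟩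

/-- A tree which is colliding comes from a tree which is colliding. -/
theorem node_of_th (h : Setup Φ ε L U F r t) {Y : CTree} {s : ℝ}
    (hY : Y.leaves ⊆ lwd Φ ε r U F) (hYs : sig Φ ε Y ≤ s) (hs : s < ext Φ ε (th Φ ε r F Y)) :
    ∃ c d, Y = node c d := by
  cases Y with
  | leaf σ =>
    have h1 : ext Φ ε (th Φ ε r F (leaf σ)) ≤ σ.1 := fs_ext h (hY (mem_singleton σ))
    exact absurd hs (not_lt.2 (h1.trans hYs))
  | node c d => exact ⟨c, d, rfl⟩

/-- **Colliding pairs in the two worlds.** -/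
theorem part_th (hΦ : IsPotential Φ) (hε : 0 < ε) (h : Setup Φ ε L U F r t) {a b : Src} {s : ℝ}
    (hs : s ≤ t) (ha : a ∈ lwd Φ ε r U F) (hb : b ∈ lwd Φ ε r U F) (has : a.1 ≤ s)
    (hbs : b.1 ≤ s) : part Φ ε L (lwd Φ ε r U F) s a b ↔
      part Φ ε L (U ∪ lvs F) s (rt Φ ε r F a) (rt Φ ε r F b) := by
  have hW := lwd_finite h
  constructor
  · rintro ⟨Y, Y', h1, h2, x, y, rfl, rfl, h3⟩
    have h4 := ((stat_eq_some_iff hΦ hε hW).1 h1).2.sub
    refine ⟨th Φ ε r F (node x y), th Φ ε r F (node y x), ?_, ?_, th Φ ε r F x, th Φ ε r F y, rfl,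
      rfl, ?_⟩
    · rw [stat_rt hΦ hε h hs ha has, h1, Option.map_some]
    · rw [stat_rt hΦ hε h hs hb hbs, h2, Option.map_some]
    · rw [th_ext h h4]
      exact h3
  · rintro ⟨X, X', h1, h2, h3⟩
    rw [stat_rt hΦ hε h hs ha has, Option.map_eq_some_iff] at h1
    rw [stat_rt hΦ hε h hs hb hbs, Option.map_eq_some_iff] at h2
    obtain ⟨Y, h1, rfl⟩ := h1
    obtain ⟨Y', h2, rfl⟩ := h2
    have h4 := (stat_eq_some_iff hΦ hε hW).1 h1
    have h5 := (stat_eq_some_iff hΦ hε hW).1 h2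
    obtain ⟨x, y, h6, h7, h8⟩ := h3
    obtain ⟨c, d, rfl⟩ := node_of_th h h4.2.sub h4.2.sig_le h8
    rw [th_ext h h4.2.sub] at h8
    rw [th_node] at h6
    injection h6 with h6 h6'
    -- the partner in the world of lines
    have h9 := lives_swap hΦ h4.2 h8
    have h10 : (node d c).root = Y'.root := by
      refine rt_inj h (h9.sub (node d c).root_mem_leaves) (h5.2.sub Y'.root_mem_leaves) ?_
      rw [← th_root, ← th_root, h7, th_node]
      change (th Φ ε r F d).root = y.root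
      rw [h6']
    have h11 : Y' = node d c := (lives_unique hΦ hε hW h9 h5.2 h10).symm
    exact ⟨node c d, node d c, h1, h11 ▸ h2, c, d, rfl, rfl, h8⟩

/-! ### Bad particles -/

/-- A bad particle of the world of lines is bad. -/
theorem badi_of_lwd (hΦ : IsPotential Φ) (hε : 0 < ε) (h : Setup Φ ε L U F r t) {a : Src} {s : ℝ}
    (hs : s ≤ t) (hbad : badi Φ ε L (lwd Φ ε r U F) a s) :
    badi Φ ε L (U ∪ lvs F) (rt Φ ε r F a) s := by
  obtain ⟨ha, h0, has, h1⟩ := hbad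
  refine ⟨rt_mem h ha, h0, (rt_birth_le hΦ hε h ha).trans has, ?_⟩
  rcases h1 with h1 | ⟨c, h1, h2⟩
  · left
    rw [stat_rt hΦ hε h hs ha has, h1, Option.map_none]
  · have hc := h1.mem.2
    have hcs := (h1.birth_le hΦ hε).2
    refine Or.inr ⟨rt Φ ε r F c, (mcon_th hΦ hε h hs ha hc has hcs).1 h1, fun hp => h2 ?_⟩
    exact (part_th hΦ hε h hs ha hc has hcs).2 hp

/-- **Bad particles in the two worlds.** -/
theorem badi_th (hΦ : IsPotential Φ) (hε : 0 < ε) (h : Setup Φ ε L U F r t)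
    (hb : ∀ x ∈ ous F, ∀ u < r x, u ≤ t → ¬badi Φ ε L (U ∪ lvs F) x.root u)
    {a : Src} {s : ℝ} (hs : s ≤ t) (ha : a ∈ lwd Φ ε r U F) (has : a.1 ≤ s) :
    badi Φ ε L (lwd Φ ε r U F) a s ↔ badi Φ ε L (U ∪ lvs F) (rt Φ ε r F a) s := by
  refine ⟨badi_of_lwd hΦ hε h hs, ?_⟩
  rintro ⟨h1, h2, h3, h4⟩
  refine ⟨ha, h2, has, ?_⟩
  rcases h4 with h4 | ⟨c', h4, h5⟩
  · left
    rw [stat_rt hΦ hε h hs ha has, Option.map_eq_none_iff] at h4
    exact h4
  · right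
    obtain ⟨c, hc, rfl⟩ := exists_rt h h4.mem.2
    have hcs : c.1 ≤ s := by
      by_contra hcon
      rcases hc with hc | ⟨x, hx, rfl⟩
      · rw [rt_of_mem h hc] at h4
        exact hcon (h4.birth_le hΦ hε).2
      · rw [rt_msrc h hx] at h4 h5
        exact hb x hx s (not_le.1 hcon) hs ⟨h4.mem.2, h2, (h4.birth_le hΦ hε).2,
          Or.inr ⟨_, h4.symm, fun hp => h5 ((part_comm hΦ).1 hp)⟩⟩
    exact ⟨c, (mcon_th hΦ hε h hs ha hc has hcs).2 h4, fun hp =>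
      h5 ((part_th hΦ hε h hs ha hc has hcs).1 hp)⟩

/-- **The particles which were bad, in the two worlds.** -/
theorem badc_th (hΦ : IsPotential Φ) (hε : 0 < ε) (h : Setup Φ ε L U F r t)
    (hb : ∀ x ∈ ous F, ∀ u < r x, u ≤ t → ¬badi Φ ε L (U ∪ lvs F) x.root u)
    {a : Src} {s : ℝ} (hs : s ≤ t) (ha : a ∈ lwd Φ ε r U F) :
    badc Φ ε L (lwd Φ ε r U F) a s ↔ badc Φ ε L (U ∪ lvs F) (rt Φ ε r F a) s := by
  constructor
  · rintro ⟨u, hu, h1⟩
    exact ⟨u, hu, badi_of_lwd hΦ hε h (hu.trans hs) h1⟩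
  · rintro ⟨u, hu, h1⟩
    have hau : a.1 ≤ u := by
      by_contra hcon
      rcases ha with ha | ⟨x, hx, rfl⟩
      · rw [rt_of_mem h ha] at h1
        exact hcon h1.2.2.1
      · rw [rt_msrc h hx] at h1
        exact hb x hx u (not_le.1 hcon) (hu.trans hs) h1
    exact ⟨u, hu, (badi_th hΦ hε h hb (hu.trans hs) ha hau).2 h1⟩

theorem badc_of_lwd (hΦ : IsPotential Φ) (hε : 0 < ε) (h : Setup Φ ε L U F r t) {a : Src} {s : ℝ}
    (hs : s ≤ t) (hbad : badc Φ ε L (lwd Φ ε r U F) a s) :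
    badc Φ ε L (U ∪ lvs F) (rt Φ ε r F a) s := by
  obtain ⟨u, hu, h1⟩ := hbad
  exact ⟨u, hu, badi_of_lwd hΦ hε h (hu.trans hs) h1⟩

/-- **The full statuses in the two worlds**, from the birth of the source on. -/
theorem sta_th (hΦ : IsPotential Φ) (hε : 0 < ε) (h : Setup Φ ε L U F r t)
    (hb : ∀ x ∈ ous F, ∀ u < r x, u ≤ t → ¬badi Φ ε L (U ∪ lvs F) x.root u)
    {a : Src} {s : ℝ} (hs : s ≤ t) (ha : a ∈ lwd Φ ε r U F) (has : a.1 ≤ s) :
    sta Φ ε L (U ∪ lvs F) (rt Φ ε r F a) s = ((sta Φ ε L (lwd Φ ε r U F) a s).1,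
      (sta Φ ε L (lwd Φ ε r U F) a s).2.1.map (th Φ ε r F),
      (sta Φ ε L (lwd Φ ε r U F) a s).2.2) := by
  have h1 : (rt Φ ε r F a ∈ U ∪ lvs F) = (a ∈ lwd Φ ε r U F) :=
    propext ⟨fun _ => ha, fun _ => rt_mem h ha⟩
  have h2 : badc Φ ε L (U ∪ lvs F) (rt Φ ε r F a) s = badc Φ ε L (lwd Φ ε r U F) a s :=
    propext (badc_th hΦ hε h hb hs ha).symm
  simp only [sta]
  rw [h1, h2, stat_rt hΦ hε h hs ha has]

/-- The alive legs are histories of the particles of `F` before the births of the sources. -/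
theorem leg_root (hΦ : IsPotential Φ) (hε : 0 < ε) (hW : W.Finite)
    (hal : ∀ x ∈ ous F, alive Φ ε L W x (r x)) {X : CTree} {s : ℝ} (hX : Leg r F X s)
    (hXa : alive Φ ε L W X s) : ∃ x ∈ ous F, x.root = X.root ∧ s < r x := by
  rcases hX with ⟨T, hT, h1, h2⟩ | ⟨h1, h2⟩
  · obtain ⟨x, hx, h3, h4⟩ := TL.leg_root (T := T) hΦ hε hW
      (fun x hx => hal x (mem_ous.2 ⟨T, hT, hx⟩)) (Or.inl ⟨h1, h2⟩) hXa
    exact ⟨x, mem_ous.2 ⟨T, hT, hx⟩, h3, h4⟩
  · exact ⟨X, h1, rfl, h2⟩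

/-- **The hypothesis `legs` of `Setup`** holds if the particles of `F` are not bad before the
births of their sources. -/
theorem legs_of_not_bad (hΦ : IsPotential Φ) (hε : 0 < ε) (hW : W.Finite)
    (hal : ∀ x ∈ ous F, alive Φ ε L W x (r x))
    (hb : ∀ x ∈ ous F, ∀ u < r x, u ≤ t → ¬badi Φ ε L W x.root u) (X p : CTree) (s : ℝ)
    (hs : s ≤ t) (hX : Leg r F X s) (hXa : alive Φ ε L W X s) (hp : live Φ ε L W p s)
    (hsp : s < ext Φ ε p) : ¬hit Φ ε p X s := by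
  intro hh
  obtain ⟨x, hx, hxr, hxs⟩ := leg_root hΦ hε hW hal hX hXa
  refine hb x hx s hxs hs ?_
  rw [hxr]
  exact badi_of_hit hΦ hε hW hXa hp hsp hh

/-- **Constructor of `Setup`.** -/
theorem Setup.of_not_bad (hΦ : IsPotential Φ) (hε : 0 < ε) (finF : F.Finite)
    (pw : ∀ T ∈ F, ∀ T' ∈ F, T ≠ T' → Disjoint T.leaves T'.leaves) (fin : U.Finite)
    (disj : Disjoint U (lvs F)) (inj : InjOn (msrc Φ ε r) (ous F))
    (fresh : ∀ x ∈ ous F, msrc Φ ε r x ∉ U) (le_r : ∀ x ∈ ous F, ext Φ ε x ≤ r x)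
    (hal : ∀ x ∈ ous F, M.alive Φ ε L (U ∪ lvs F) x (r x))
    (lives : ∀ x ∈ ous F, r x = ext Φ ε x ∨ M.lives Φ ε L (U ∪ lvs F) x (r x))
    (hb : ∀ x ∈ ous F, ∀ u < r x, u ≤ t → ¬badi Φ ε L (U ∪ lvs F) x.root u)
    (indep : ∀ p y s, s ≤ t → live Φ ε L (lwd Φ ε r U F) p s →
      M.alive Φ ε L (lwd Φ ε r U F) y s → Disjoint p.leaves y.leaves → hit Φ ε p y s →
      Disjoint (th Φ ε r F p).leaves (th Φ ε r F y).leaves) :
    Setup Φ ε L U F r t :=
  ⟨finF, pw, fin, disj, inj, fresh, le_r, hal, lives,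
    legs_of_not_bad hΦ hε (fin.union (lvs_finite finF)) hal hb, indep⟩

end Vale.Agent.P119.TF
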