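import Vale.Agent.P119.TF.Real
import Vale.Agent.P119.TL.Rebirth

/-!
# P119: TREES -> LINES for a forest (`helper384`)

Forest version of `TL/Expo.lean`, `TL/Lines.lean` and `TL/Rebirth.lean` (`helper119`).
-/

open MeasureTheory Filter Topology Set
open scoped ENNReal NNReal

noncomputable section

namespace Vale.Agent.P119.TF

open KU M M.CTree RB TL

variable {Φ : E3 → ℝ} {ε : ℝ} {L : ℕ} {U : Set Src} {F : Set CTree} {r : CTree → ℝ} {t : ℝ}
  {hΦ : IsPotential Φ} {hε : 0 < ε} {W W' : Finset Src} {a b : Src} {s : ℝ}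

theorem con_iff (hΦ : IsPotential Φ) (hε : 0 < ε) (h : Setup Φ ε L U F r t) (hW : (W : Set Src) = U ∪ lvs F)
    (hW' : (W' : Set Src) = lwd Φ ε r U F)
    (hp : ∀ a ∈ W', ∀ s, a.1 ≤ s → XR Φ ε W' s a = XR Φ ε W s (rt Φ ε r F a))
    (hm : mcon Φ ε L (lwd Φ ε r U F) s a b ↔
      mcon Φ ε L (U ∪ lvs F) s (rt Φ ε r F a) (rt Φ ε r F b))
    (ha : a ∈ W') (hb : b ∈ W') (has : a.1 ≤ s) (hbs : b.1 ≤ s) :
    con Φ ε L (XR Φ ε) W' s a b ↔ con Φ ε L (XR Φ ε) W s (rt Φ ε r F a) (rt Φ ε r F b) := by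
  unfold con
  rw [hW, hW', hm]
  refine or_congr Iff.rfl ?_
  have ha' : a ∈ lwd Φ ε r U F := by rw [← hW']; exact Finset.mem_coe.2 ha
  have hb' : b ∈ lwd Φ ε r U F := by rw [← hW']; exact Finset.mem_coe.2 hb
  have h1 : rt Φ ε r F a ∈ W := by rw [← Finset.mem_coe, hW]; exact rt_mem h ha'
  have h2 : rt Φ ε r F b ∈ W := by rw [← Finset.mem_coe, hW]; exact rt_mem h hb'
  unfold rcon
  rw [hp a ha s has, hp b hb s hbs]
  constructor
  · rintro ⟨h3, -, -, h4, -, -, h5⟩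
    exact ⟨fun he => h3 (rt_injOn h ha' hb' he), h1, h2, h4,
      (rt_birth_le hΦ hε h ha').trans has, (rt_birth_le hΦ hε h hb').trans hbs, h5⟩
  · rintro ⟨h3, -, -, h4, -, -, h5⟩
    exact ⟨fun he => h3 (by rw [he]), ha, hb, h4, has, hbs, h5⟩

/-- **TREE -> LINES for the exposed particles**, abstract form. -/
theorem exp_iff_aux (h : Setup Φ ε L U F r t) (hW : (W : Set Src) = U ∪ lvs F)
    (hW' : (W' : Set Src) = lwd Φ ε r U F)
    (hR : ∀ x ∈ ous F, ∀ s < r x, ¬(Y Φ ε L hΦ hε).Exp W x.root s)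
    (hc : ∀ a ∈ W', ∀ b ∈ W', ∀ s ≤ t, a.1 ≤ s → b.1 ≤ s →
      (con Φ ε L (XR Φ ε) W' s a b ↔ con Φ ε L (XR Φ ε) W s (rt Φ ε r F a) (rt Φ ε r F b)))
    (hb : ∀ a ∈ W', ∀ s ≤ t, (badc Φ ε L (lwd Φ ε r U F) a s ↔
      badc Φ ε L (U ∪ lvs F) (rt Φ ε r F a) s))
    (ha : a ∈ W') (hs : s ≤ t) :
    (Y Φ ε L hΦ hε).Exp W' a s ↔ (Y Φ ε L hΦ hε).Exp W (rt Φ ε r F a) s := by
  constructor
  · intro he
    induction he with
    | @bad a u s hus hba =>
      refine .bad hus ?_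
      have h1 : badc Φ ε L (W' : Set Src) a u := hba
      rw [hW'] at h1
      have h2 := (hb a ha u (hus.trans hs)).1 h1
      rw [← hW] at h2
      exact h2
    | @con a b u s hus hbe hcon ih =>
      have h1 : con Φ ε L (XR Φ ε) W' u a b := hcon
      have hb' := h1.mem.2
      have h2 := h1.birth_le hΦ hε
      exact .con hus (ih hb' (hus.trans hs)) ((hc a ha b hb' u (hus.trans hs) h2.1 h2.2).1 h1)
  · intro he
    have key : ∀ c s, (Y Φ ε L hΦ hε).Exp W c s → s ≤ t → ∀ a ∈ W', rt Φ ε r F a = c →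
        (Y Φ ε L hΦ hε).Exp W' a s := by
      intro c s he
      -- exposed particles are born in the world of lines
      have hborn : ∀ a ∈ W', ∀ u, (Y Φ ε L hΦ hε).Exp W (rt Φ ε r F a) u → a.1 ≤ u := by
        intro a ha u hu
        have ha' : a ∈ lwd Φ ε r U F := by rw [← hW']; exact Finset.mem_coe.2 ha
        rcases ha' with ha' | ⟨x, hx, rfl⟩
        · rw [rt_of_mem h ha'] at hu
          exact exp_birth_le hu
        · rw [rt_msrc h hx] at hu
          by_contra hcon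
          exact hR x hx u (not_le.1 hcon) hu
      induction he with
      | @bad c u s hus hba =>
        rintro hs a ha rfl
        refine .bad hus ?_
        have h1 : badc Φ ε L (W : Set Src) (rt Φ ε r F a) u := hba
        rw [hW] at h1
        have h2 := (hb a ha u (hus.trans hs)).2 h1
        rw [← hW'] at h2
        exact h2
      | @con c b u s hus hbe hcon ih =>
        rintro hs a ha rfl
        have h1 : con Φ ε L (XR Φ ε) W u (rt Φ ε r F a) b := hcon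
        have hbW := h1.mem.2
        obtain ⟨b', hb1, rfl⟩ : ∃ b' ∈ W', rt Φ ε r F b' = b := by
          rw [← Finset.mem_coe, hW] at hbW
          obtain ⟨b', h2, h3⟩ := rt_surjOn h hbW
          rw [← hW'] at h2
          exact ⟨b', Finset.mem_coe.1 h2, h3⟩
        have h2 : (Y Φ ε L hΦ hε).Exp W (rt Φ ε r F a) u := exp_of_con hbe h1
        exact .con hus (ih (hus.trans hs) b' hb1 rfl)
          ((hc a ha b' hb1 u (hus.trans hs) (hborn a ha u h2) (hborn b' hb1 u hbe)).2 h1)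
    exact key _ s he hs a ha rfl

/-- **TREE -> LINES**, given the correspondence of the real paths. -/
theorem lines_of_pos (h : Setup Φ ε L U F r t) (hW : (W : Set Src) = U ∪ lvs F)
    (hW' : (W' : Set Src) = lwd Φ ε r U F)
    (hR : ∀ x ∈ ous F, ∀ s < r x, ¬(Y Φ ε L hΦ hε).Exp W x.root s)
    (hp : ∀ a ∈ W', ∀ s, a.1 ≤ s → XR Φ ε W' s a = XR Φ ε W s (rt Φ ε r F a)) :
    Lines Φ ε L hΦ hε W W' (rt Φ ε r F) (th Φ ε r F) t := by
  have hmem : ∀ a ∈ W', a ∈ lwd Φ ε r U F := fun a ha => by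
    rw [← hW']; exact Finset.mem_coe.2 ha
  have hb : ∀ x ∈ ous F, ∀ u < r x, u ≤ t → ¬badi Φ ε L (U ∪ lvs F) x.root u := by
    intro x hx u hu _ hbad
    rw [← hW] at hbad
    exact hR x hx u hu (exp_of_badi hbad le_rfl)
  have hm : ∀ a ∈ W', ∀ b ∈ W', ∀ s ≤ t, a.1 ≤ s → b.1 ≤ s →
      (mcon Φ ε L (lwd Φ ε r U F) s a b ↔
        mcon Φ ε L (U ∪ lvs F) s (rt Φ ε r F a) (rt Φ ε r F b)) :=
    fun a ha b hb s hs has hbs => mcon_th hΦ hε h hs (hmem a ha) (hmem b hb) has hbs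
  have hbad : ∀ a ∈ W', ∀ s ≤ t, (badc Φ ε L (lwd Φ ε r U F) a s ↔
      badc Φ ε L (U ∪ lvs F) (rt Φ ε r F a) s) := fun a ha s hs =>
    badc_th hΦ hε h hb hs (hmem a ha)
  have hc : ∀ a ∈ W', ∀ b ∈ W', ∀ s ≤ t, a.1 ≤ s → b.1 ≤ s →
      (con Φ ε L (XR Φ ε) W' s a b ↔
        con Φ ε L (XR Φ ε) W s (rt Φ ε r F a) (rt Φ ε r F b)) :=
    fun a ha b hb s hs has hbs =>
      con_iff hΦ hε h hW hW' hp (hm a ha b hb s hs has hbs) ha hb has hbs
  refine ⟨?_, fun a ha => rt_birth_le hΦ hε h (hmem a ha), fun a ha s _ he => ?_, hp,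
    fun a ha s hs has => ?_, fun a ha b hb s hs has hbs => ?_, fun a ha b hb s hs has hbs => ?_,
    hc, fun a ha s hs => ?_, fun a ha s hs => exp_iff_aux h hW hW' hR hc hbad ha hs⟩
  · rw [hW, hW']
    exact rt_bijOn h
  · rcases hmem a ha with ha' | ⟨x, hx, rfl⟩
    · rw [rt_of_mem h ha'] at he
      exact exp_birth_le he
    · rw [rt_msrc h hx] at he
      by_contra hcon
      exact hR x hx s (not_le.1 hcon) he
  · rw [hW, hW']
    exact stat_rt hΦ hε h hs (hmem a ha) has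
  · rw [hW, hW']
    exact hm a ha b hb s hs has hbs
  · rw [hW, hW']
    exact part_th hΦ hε h hs (hmem a ha) (hmem b hb) has hbs
  · rw [hW, hW']
    exact hbad a ha s hs

/-- **The real paths in the world of lines.** -/
theorem pos_of_setup (h : Setup Φ ε L U F r t) (hW : (W : Set Src) = U ∪ lvs F)
    (hW' : (W' : Set Src) = lwd Φ ε r U F) (h0 : ∀ a ∈ W, 0 ≤ a.1)
    (hrt : ∀ x ∈ ous F, r x ≤ t)
    (hR : ∀ x ∈ ous F, ∀ s < r x, ¬(Y Φ ε L hΦ hε).Exp W x.root s) :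
    ∀ a ∈ W', ∀ s, a.1 ≤ s → XR Φ ε W' s a = XR Φ ε W s (rt Φ ε r F a) := by
  have hmem : ∀ a ∈ W', a ∈ lwd Φ ε r U F := fun a ha => by
    rw [← hW']; exact Finset.mem_coe.2 ha
  refine rebirth (β := fun a : Src => a.1) (ℓ := fun a : Src => a.2.1)
    (β' := fun a : Src => a.1) (ℓ' := fun a : Src => a.2.1) hΦ hε ?_ ?_ ?_ ?_
  · rw [hW, hW']
    exact rt_bijOn h
  · exact fun a ha => rt_birth_le hΦ hε h (hmem a ha)
  · intro a ha
    rcases hmem a ha with ha' | ⟨x, hx, rfl⟩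
    · rw [rt_of_mem h ha']
      exact (RB_isBW hΦ hε _ _ W).pre a _ le_rfl
    · rw [rt_msrc h hx]
      exact leg_real_birth (hΦ := hΦ) (hε := hε) h hW h0 hR hx
  · intro j hj k hk hne hm s hs hs'
    exact far_birth (hΦ := hΦ) (hε := hε) h hW h0 hrt hR (hmem j hj) (hmem k hk) hne hm hs hs'

/-- **TREE -> LINES.** -/
theorem lines (h : Setup Φ ε L U F r t) (hW : (W : Set Src) = U ∪ lvs F)
    (hW' : (W' : Set Src) = lwd Φ ε r U F) (h0 : ∀ a ∈ W, 0 ≤ a.1)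
    (hrt : ∀ x ∈ ous F, r x ≤ t)
    (hR : ∀ x ∈ ous F, ∀ s < r x, ¬(Y Φ ε L hΦ hε).Exp W x.root s) :
    Lines Φ ε L hΦ hε W W' (rt Φ ε r F) (th Φ ε r F) t :=
  lines_of_pos h hW hW' hR (pos_of_setup h hW hW' h0 hrt hR)

end Vale.Agent.P119.TF
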