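import Vale.Agent.P119.TF.Setup
import Vale.Agent.P119.TL.Main

/-!
# P119: TREES -> LINES, the M-level theorem for a forest (`helper384`)

Forest version of `TL/Main.lean` (`helper119`).
-/

open MeasureTheory Filter Topology Set
open scoped ENNReal NNReal

noncomputable section

namespace Vale.Agent.P119.TF

open KU M M.CTree TL

variable {Φ : E3 → ℝ} {ε : ℝ} {L : ℕ} {U : Set Src} {F : Set CTree} {r : CTree → ℝ} {t : ℝ}

/-- `X` is a subtree of a tree of `F`. -/
def SubF (F : Set CTree) (X : CTree) : Prop := ∃ T ∈ F, Sub X T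

theorem SubF.leaves {X : CTree} (h : SubF F X) : X.leaves ⊆ lvs F := by
  obtain ⟨T, hT, h⟩ := h
  exact h.leaves_subset.trans (leaves_sub_lvs hT)

/-- The legs are not hit by alive trees, except for the collisions of `F`. -/
theorem leg_hit (hΦ : IsPotential Φ) (hε : 0 < ε) (h : Setup Φ ε L U F r t) {X d : CTree}
    {s : ℝ} (hX : Leg r F X s) (hXa : alive Φ ε L (U ∪ lvs F) X s)
    (hda : alive Φ ε L (U ∪ lvs F) d s) (hh : hit Φ ε X d s) :
    (SubF F (node X d) ∧ s = sig Φ ε (node X d)) ∨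
      (SubF F (node d X) ∧ s = sig Φ ε (node d X)) := by
  have hW := wd_finite h
  rcases hX with ⟨T, hT, h1, h2⟩ | ⟨h1, h2⟩
  · rcases sub_hit hΦ hε hW (h.alive T (self_mem_ous hT)) h1 h2 hXa hda hh with ⟨h3, h4⟩ | ⟨h3, h4⟩
    · exact Or.inl ⟨⟨T, hT, h3⟩, h4⟩
    · exact Or.inr ⟨⟨T, hT, h3⟩, h4⟩
  · exact absurd hda (no_hit hΦ hε hW (h.alive X h1) h2 hh)

/-- **The alive trees of `U ∪ lvs F`**: they come from the world of lines, or are legs. -/
theorem alive_classify (hΦ : IsPotential Φ) (hε : 0 < ε) (h : Setup Φ ε L U F r t) {X : CTree}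
    {s : ℝ} (hX : alive Φ ε L (U ∪ lvs F) X s) :
    (∃ y, y.leaves ⊆ lwd Φ ε r U F ∧ X = th Φ ε r F y ∧ ext Φ ε y ≤ s) ∨ Leg r F X s := by
  have hW := wd_finite h
  -- a final history
  have hout : ∀ x ∈ ous F, ∀ s, ext Φ ε x ≤ s →
      (∃ y, y.leaves ⊆ lwd Φ ε r U F ∧ x = th Φ ε r F y ∧ ext Φ ε y ≤ s) ∨ Leg r F x s := by
    intro x hx s hs
    rcases lt_or_ge s (r x) with h1 | h1
    · exact Or.inr (Or.inr ⟨hx, h1⟩)
    · refine Or.inl ⟨leaf (msrc Φ ε r x), ?_, (th_leaf_msrc h hx).symm, h1⟩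
      rintro σ rfl
      exact Or.inr ⟨x, hx, rfl⟩
  -- a subtree of a tree of `F`
  have hsub : ∀ X, SubF F X → ∀ s, ext Φ ε X ≤ s →
      (∃ y, y.leaves ⊆ lwd Φ ε r U F ∧ X = th Φ ε r F y ∧ ext Φ ε y ≤ s) ∨ Leg r F X s := by
    rintro X ⟨T, hT, hX⟩ s hs
    by_cases hXT : X = T
    · exact hout X (hXT ▸ self_mem_ous hT) s hs
    · exact Or.inr (Or.inl ⟨T, hT, hX, hXT⟩)
  have hswap : ∀ c d : CTree, SubF F (node c d) → node d c ∈ ous F := by
    rintro c d ⟨T, hT, h1⟩
    exact exs_mem_ous hT (exs_iff.2 ⟨c, d, h1, rfl⟩)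
  induction X generalizing s with
  | leaf σ =>
    have h1 : σ ∈ U ∪ lvs F := (alive_pre hX).sub (mem_singleton σ)
    rcases h1 with h1 | h1
    · refine Or.inl ⟨leaf σ, ?_, ?_, (alive_pre hX).ext_le⟩
      · rintro τ rfl
        exact Or.inl h1
      · refine (th_of_subset h ?_).symm
        rintro τ rfl
        exact h1
    · obtain ⟨T, hT, h2⟩ := mem_lvs.1 h1
      exact hsub _ ⟨T, hT, sub_leaf_of_mem h2⟩ s (alive_pre hX).ext_le
  | node c d ihc ihd =>
    have hok := (alive_pre hX).ok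
    have hc := alive_left hΦ hε hW hX
    have hd := alive_right hΦ hε hW hX
    have hXs := (alive_pre hX).ext_le
    have hcd := hit_sig hΦ hε hok
    have hdc := hit_sig' hΦ hε hok
    have key : (SubF F (node c d) ∨ SubF F (node d c)) →
        (∃ y, y.leaves ⊆ lwd Φ ε r U F ∧ node c d = th Φ ε r F y ∧ ext Φ ε y ≤ s) ∨
          Leg r F (node c d) s := by
      rintro (h1 | h1)
      · exact hsub _ h1 s hXs
      · exact hout _ (hswap d c h1) s hXs
    rcases ihc hc with ⟨y, hy, hcy, hye⟩ | hleg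
    · rcases ihd hd with ⟨y', hy', hdy', hye'⟩ | hleg
      · refine Or.inl ⟨node y y', union_subset hy hy', by rw [th_node, ← hcy, ← hdy'], ?_⟩
        have h2 : (node y y').leaves ⊆ lwd Φ ε r U F := union_subset hy hy'
        rw [← th_ext h h2, th_node, ← hcy, ← hdy']
        exact hXs
      · rcases leg_hit hΦ hε h hleg hd hc hdc with h1 | h1
        · exact key (Or.inr h1.1)
        · exact key (Or.inl h1.1)
    · rcases leg_hit hΦ hε h hleg hc hd hcd with h1 | h1
      · exact key (Or.inl h1.1)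
      · exact key (Or.inr h1.1)

/-- A final history which is a subtree of a tree of `F` is this tree. -/
theorem ous_sub (h : Setup Φ ε L U F r t) {x T : CTree} (hx : x ∈ ous F) (hT : T ∈ F)
    (hxT : Sub x T) : x = T := by
  obtain ⟨T', hT', hx'⟩ := mem_ous.1 hx
  have h1 : T' = T := by
    by_contra hne
    exact disjoint_left.1 (h.pw T' hT' T hT hne) (outs_leaves hx' x.root_mem_leaves)
      (hxT.leaves_subset x.root_mem_leaves)
  subst h1
  rcases hx' with rfl | hx'
  · rfl
  · exact absurd hxT (not_sub_of_exs (ok_T h hT) hx')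

/-- A leg is never in contact with a flying tree that comes from the world of lines. -/
theorem leg_not_own (hΦ : IsPotential Φ) (hε : 0 < ε) (h : Setup Φ ε L U F r t) {X q : CTree}
    {s : ℝ} (hs : s ≤ t) (hX : Leg r F X s) (hXa : alive Φ ε L (U ∪ lvs F) X s)
    (hq : q.leaves ⊆ lwd Φ ε r U F) (hql : live Φ ε L (U ∪ lvs F) (th Φ ε r F q) s) :
    ¬own Φ ε (th Φ ε r F q) X s := by
  intro ho
  have hW := wd_finite h
  rcases lt_or_ge s (ext Φ ε (th Φ ε r F q)) with h1 | h1
  · exact h.legs X _ s hs hX hXa hql h1 (ho.hit hΦ)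
  · have hqa : alive Φ ε L (U ∪ lvs F) (th Φ ε r F q) s :=
      (alive_iff_live hΦ hε hW).2 ⟨hql, h1⟩
    have h2 := ho.symm hΦ hε hql.ok (alive_pre hXa).ok h1
    have key : ∀ T ∈ F, Sub (th Φ ε r F q) T → (th Φ ε r F q) ≠ T → False := by
      intro T hT h3 h4
      -- `q` contains a source `msrc x`, then `x` is a subtree of `T`
      have h5 : ∃ x ∈ ous F, Sub x (th Φ ε r F q) := by
        obtain ⟨σ, hσ⟩ := q.leaves_nonempty
        rcases hq hσ with h6 | ⟨x, hx, rfl⟩
        · exact absurd (leaves_sub_lvs hT (h3.leaves_subset (mem_th_leaves h hσ h6)))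
            (disjoint_left.1 h.disj h6)
        · refine ⟨x, hx, ?_⟩
          have h7 : ∀ p : CTree, msrc Φ ε r x ∈ p.leaves → Sub x (th Φ ε r F p) := by
            intro p
            induction p with
            | leaf τ =>
              intro hτ
              rw [← mem_singleton_iff.1 hτ, th_leaf_msrc h hx]
              exact Sub.refl _
            | node a b iha ihb =>
              rintro (hτ | hτ)
              · exact Sub.left _ (iha hτ)
              · exact Sub.right _ (ihb hτ)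
          exact h7 q hσ
      obtain ⟨x, hx, h6⟩ := h5
      have h7 := ous_sub h hx hT (h6.trans h3)
      subst h7
      exact h4 (h3.eq_of_card h6.card_le)
    rcases leg_hit hΦ hε h hX hXa hqa h2 with ⟨⟨T, hT, h3⟩, -⟩ | ⟨⟨T, hT, h3⟩, -⟩
    · refine key T hT ((Sub.right _ (Sub.refl _)).trans h3) fun hcon => ?_
      rw [hcon] at h3
      exact not_sub_right _ _ (show Sub (node X T) T from h3)
    · refine key T hT ((Sub.left _ (Sub.refl _)).trans h3) fun hcon => ?_
      rw [hcon] at h3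
      exact not_sub_left _ _ (show Sub (node T X) T from h3)

/-! ### Roots -/

/-- The final histories are determined by their roots. -/
theorem ous_root_inj (h : Setup Φ ε L U F r t) {x y : CTree} (hx : x ∈ ous F) (hy : y ∈ ous F)
    (he : x.root = y.root) : x = y := by
  obtain ⟨T, hT, hxT⟩ := mem_ous.1 hx
  obtain ⟨T', hT', hyT⟩ := mem_ous.1 hy
  have h1 : T = T' := by
    by_contra hne
    exact disjoint_left.1 (h.pw T hT T' hT' hne) (outs_leaves hxT x.root_mem_leaves)
      (he ▸ outs_leaves hyT y.root_mem_leaves)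
  subst h1
  exact outs_root_inj (ok_T h hT) hxT hyT he

theorem fs_root_inj (h : Setup Φ ε L U F r t) {σ σ' : Src} (hσ : σ ∈ lwd Φ ε r U F)
    (hσ' : σ' ∈ lwd Φ ε r U F) (he : (fs Φ ε r F σ).root = (fs Φ ε r F σ').root) : σ = σ' := by
  have hUT := disjoint_left.1 h.disj
  rcases hσ with hσ | ⟨x, hx, rfl⟩ <;> rcases hσ' with hσ' | ⟨x', hx', rfl⟩
  · rwa [fs_of_mem h hσ, fs_of_mem h hσ'] at he
  · rw [fs_of_mem h hσ, fs_msrc h hx'] at he
    have he : σ = x'.root := he
    exact absurd (ous_leaves hx' x'.root_mem_leaves) (he ▸ hUT hσ)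
  · rw [fs_of_mem h hσ', fs_msrc h hx] at he
    have he : x.root = σ' := he
    exact absurd (ous_leaves hx x.root_mem_leaves) (he ▸ hUT hσ')
  · rw [fs_msrc h hx, fs_msrc h hx'] at he
    rw [ous_root_inj h hx hx' he]

theorem th_root_inj (h : Setup Φ ε L U F r t) {y y' : CTree} (hy : y.leaves ⊆ lwd Φ ε r U F)
    (hy' : y'.leaves ⊆ lwd Φ ε r U F) (he : (th Φ ε r F y).root = (th Φ ε r F y').root) :
    y.root = y'.root := by
  have e1 : (th Φ ε r F y).root = (fs Φ ε r F y.root).root := sbs_root y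
  have e2 : (th Φ ε r F y').root = (fs Φ ε r F y'.root).root := sbs_root y'
  exact fs_root_inj h (hy y.root_mem_leaves) (hy' y'.root_mem_leaves) (e1 ▸ e2 ▸ he)

/-! ### The geometric conditions -/

/-- The histories are not in contact with an alive tree before or at the birth of the source. -/
theorem birth_lt (hΦ : IsPotential Φ) (hε : 0 < ε) (h : Setup Φ ε L U F r t) {x b : CTree}
    {τ : ℝ} (hx : x ∈ ous F) (hb : alive Φ ε L (U ∪ lvs F) b τ) (hτ : ext Φ ε x < τ)
    (hh : hit Φ ε x b τ) : r x < τ := by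
  have hW := wd_finite h
  rcases lt_trichotomy τ (r x) with h1 | h1 | h1
  · exact absurd hb (no_hit hΦ hε hW (h.alive x hx) h1 hh)
  · rcases h.lives x hx with h2 | h2
    · rw [← h1] at h2
      exact absurd h2 hτ.ne'
    · exact absurd hb (h2.nohit b τ h1.le hh)
  · exact h1

theorem ok_of_th (hΦ : IsPotential Φ) (hε : 0 < ε) (h : Setup Φ ε L U F r t) {p : CTree} {s : ℝ}
    (hp : p.leaves ⊆ lwd Φ ε r U F) (hl : live Φ ε L (U ∪ lvs F) (th Φ ε r F p) s) :
    ok Φ ε p := by
  have hW := wd_finite h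
  induction p generalizing s with
  | leaf σ =>
    rcases hp (mem_singleton σ) with hσ | ⟨x, hx, rfl⟩
    · have h1 := hl.ok
      change ok Φ ε (fs Φ ε r F σ) at h1
      rwa [fs_of_mem h hσ] at h1
    · exact (ext_nonneg hΦ hε (ok_out h hx)).trans (h.le_r x hx)
  | node a b iha ihb =>
    have ha := leaves_left hp
    have hb := leaves_right hp
    rw [th_node] at hl
    have hla := live_left hΦ hε hW hl
    have hlb := live_right hΦ hε hW hl
    have hok := hl.ok
    have h1 := hit_sig hΦ hε hok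
    have h2 := hit_sig' hΦ hε hok
    rw [← th_node, th_sig h hp] at hla hlb h1 h2
    obtain ⟨-, -, h3, h4, h5, h6, h7⟩ := hok
    rw [th_ln h ha, th_ln h hb] at h4 h5 h6 h7
    -- the ends of the last collisions
    have key : ∀ c d : CTree, c.leaves ⊆ lwd Φ ε r U F →
        alive Φ ε L (U ∪ lvs F) (th Φ ε r F d) (sig Φ ε (node a b)) →
        ext Φ ε (th Φ ε r F c) < sig Φ ε (node a b) →
        hit Φ ε (th Φ ε r F c) (th Φ ε r F d) (sig Φ ε (node a b)) →
        ext Φ ε c < sig Φ ε (node a b) := by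
      intro c d hc hd he hh
      cases c with
      | leaf σ =>
        rcases hc (mem_singleton σ) with hσ | ⟨x, hx, rfl⟩
        · have e : th Φ ε r F (leaf σ) = leaf σ := fs_of_mem h hσ
          rwa [e] at he
        · rw [th_leaf_msrc h hx] at he hh
          exact birth_lt hΦ hε h hx hd he hh
      | node c d => rwa [th_ext h hc] at he
    exact ⟨iha ha ((alive_iff_live hΦ hε hW).1 hla).1, ihb hb ((alive_iff_live hΦ hε hW).1 hlb).1,
      disjoint_of_th h3, h4, h5, key a b ha hlb h6 h1, key b a hb hla h7 h2⟩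

theorem ok_th (hΦ : IsPotential Φ) (hε : 0 < ε) (h : Setup Φ ε L U F r t) {p : CTree} {s : ℝ}
    (hp : p.leaves ⊆ lwd Φ ε r U F) (hs : s ≤ t) (hl : live Φ ε L (lwd Φ ε r U F) p s) :
    ok Φ ε (th Φ ε r F p) := by
  have hW := lwd_finite h
  induction p generalizing s with
  | leaf σ =>
    rcases hp (mem_singleton σ) with hσ | ⟨x, hx, rfl⟩
    · change ok Φ ε (fs Φ ε r F σ)
      rw [fs_of_mem h hσ]
      exact hl.ok
    · rw [th_leaf_msrc h hx]
      exact ok_out h hx
  | node a b iha ihb =>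
    have ha := leaves_left hp
    have hb := leaves_right hp
    have hla := live_left hΦ hε hW hl
    have hlb := live_right hΦ hε hW hl
    have hst : sig Φ ε (node a b) ≤ t := hl.sig_le.trans hs
    have hla' := ((alive_iff_live hΦ hε hW).1 hla).1
    have hlb' := ((alive_iff_live hΦ hε hW).1 hlb).1
    have h1 := h.indep a b _ hst hla' hlb hl.ok.2.2.1 (hit_sig hΦ hε hl.ok)
    obtain ⟨-, -, h3, h4, h5, h6, h7⟩ := hl.ok
    rw [th_node]
    refine ⟨iha ha hst hla', ihb hb hst hlb', h1, ?_, ?_, ?_, ?_⟩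
    · rw [th_ln h ha, th_ln h hb]; exact h4
    · rw [th_ln h ha, th_ln h hb]; exact h5
    · rw [th_ln h ha, th_ln h hb]; exact (th_ext_le h ha).trans_lt h6
    · rw [th_ln h ha, th_ln h hb]; exact (th_ext_le h hb).trans_lt h7

/-! ### Hits in the two worlds -/

/-- The path to the relevant subtree, from the world of lines to the real one. -/
theorem at_th (hΦ : IsPotential Φ) (hε : 0 < ε) (h : Setup Φ ε L U F r t) {p q y : CTree} {s : ℝ}
    (hp : p.leaves ⊆ lwd Φ ε r U F) (hok : ok Φ ε p) (hd : p.depth ≤ L)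
    (hno : ∀ X s', s' < s → hit Φ ε p X s' → ¬alive Φ ε L (lwd Φ ε r U F) X s')
    (hy : alive Φ ε L (lwd Φ ε r U F) y s) (hat : At Φ ε y s q p) :
    At Φ ε (th Φ ε r F y) s (th Φ ε r F q) (th Φ ε r F p) := by
  have hW := lwd_finite h
  have hyl := (alive_pre hy).sub
  induction hat with
  | refl => exact At.refl
  | @left a b h1 hs hne ih =>
    have ha := leaves_left hp
    have hb := leaves_right hp
    have hda : a.depth ≤ L := (le_max_left a.depth b.depth).trans (Nat.le_of_succ_le hd)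
    have hdb : b.depth ≤ L := (le_max_right a.depth b.depth).trans (Nat.le_of_succ_le hd)
    rw [th_node]
    refine At.left (ih ha hok.1 hda fun X s' hs' hh =>
      hno X s' hs' (hit_left_of_lt (hs'.trans_le hs) hh)) (by rw [← th_node, th_sig h hp]; exact hs)
      ?_
    rintro ⟨h2, h3⟩
    rw [← th_node, th_sig h hp] at h3
    refine hne ⟨?_, h3⟩
    have hba : alive Φ ε L (lwd Φ ε r U F) b s := by
      rw [alive_iff hΦ hε hW]
      refine ⟨⟨hb, hok.2.1, hdb, ?_⟩, fun X s' hs' hh =>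
        hno X s' hs' (hit_right_of_lt (hs'.trans_le hs) hh)⟩
      rw [h3]
      exact hok.2.2.2.2.2.2.le
    exact alive_unique hΦ hε hW hy hba (th_root_inj h hyl hb (by rw [h2]))
  | @right a b h1 hs hne ih =>
    have ha := leaves_left hp
    have hb := leaves_right hp
    have hda : a.depth ≤ L := (le_max_left a.depth b.depth).trans (Nat.le_of_succ_le hd)
    have hdb : b.depth ≤ L := (le_max_right a.depth b.depth).trans (Nat.le_of_succ_le hd)
    rw [th_node]
    refine At.right (ih hb hok.2.1 hdb fun X s' hs' hh =>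
      hno X s' hs' (hit_right_of_lt (hs'.trans_le hs) hh)) (by rw [← th_node, th_sig h hp]; exact hs)
      ?_
    rintro ⟨h2, h3⟩
    rw [← th_node, th_sig h hp] at h3
    refine hne ⟨?_, h3⟩
    have haa : alive Φ ε L (lwd Φ ε r U F) a s := by
      rw [alive_iff hΦ hε hW]
      refine ⟨⟨ha, hok.1, hda, ?_⟩, fun X s' hs' hh =>
        hno X s' hs' (hit_left_of_lt (hs'.trans_le hs) hh)⟩
      rw [h3]
      exact hok.2.2.2.2.2.1.le
    exact alive_unique hΦ hε hW hy haa (th_root_inj h hyl ha (by rw [h2]))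

/-- **From the world of lines to the real one.** -/
theorem hit_th (hΦ : IsPotential Φ) (hε : 0 < ε) (h : Setup Φ ε L U F r t) {p y : CTree} {s : ℝ}
    (hs : s ≤ t) (hp : p.leaves ⊆ lwd Φ ε r U F) (hok : ok Φ ε p) (hd : p.depth ≤ L)
    (hno : ∀ X s', s' < s → hit Φ ε p X s' → ¬alive Φ ε L (lwd Φ ε r U F) X s')
    (hy : alive Φ ε L (lwd Φ ε r U F) y s) (hh : hit Φ ε p y s) :
    hit Φ ε (th Φ ε r F p) (th Φ ε r F y) s := by
  obtain ⟨q, h1, h2⟩ := (hit_iff_at hΦ).1 hh
  have hq : q.leaves ⊆ lwd Φ ε r U F := h1.sub.leaves_subset.trans hp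
  have hql : live Φ ε L (lwd Φ ε r U F) q s :=
    ⟨hq, h1.sub.ok hok, h1.sub.depth_le.trans hd, h2.1, fun X s' hs' hX =>
      hno X s' hs' (hit_of_at hΦ h1 hs' hX)⟩
  have h3 := h.indep q y s hs hql hy h2.2.2.1 (h2.hit hΦ)
  exact (hit_iff_at hΦ).2 ⟨_, at_th hΦ hε h hp hok hd hno hy h1,
    th_own hΦ hε h hq (alive_pre hy).sub h3 h2⟩

/-- The path to the relevant subtree, from the real world to the world of lines. -/
theorem at_of_th (hΦ : IsPotential Φ) (hε : 0 < ε) (h : Setup Φ ε L U F r t) {p q' X : CTree}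
    {s : ℝ} (hp : p.leaves ⊆ lwd Φ ε r U F) (hX : alive Φ ε L (U ∪ lvs F) X s)
    (hat : At Φ ε X s q' (th Φ ε r F p)) (ho : own Φ ε q' X s) :
    ∃ q, q.leaves ⊆ lwd Φ ε r U F ∧ q' = th Φ ε r F q ∧ sig Φ ε q ≤ s ∧
      ∀ y, X = th Φ ε r F y → At Φ ε y s q p := by
  have hW := wd_finite h
  induction p with
  | leaf σ =>
    rcases hp (mem_singleton σ) with hσ | ⟨x, hx, rfl⟩
    · have e : th Φ ε r F (leaf σ) = leaf σ := fs_of_mem h hσ
      rw [e] at hat
      cases hat
      exact ⟨leaf σ, hp, e.symm, ho.1, fun y _ => At.refl⟩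
    · rw [th_leaf_msrc h hx] at hat
      have hh : hit Φ ε x X s := (hit_iff_at hΦ).2 ⟨q', hat, ho⟩
      have h1 : r x ≤ s := by
        by_contra hcon
        exact no_hit hΦ hε hW (h.alive x hx) (not_le.1 hcon) hh hX
      refine ⟨leaf (msrc Φ ε r x), hp, ?_, h1, fun y _ => ?_⟩
      · rw [th_leaf_msrc h hx]
        have hokx := ok_out h hx
        have hex := (h.le_r x hx).trans h1
        cases hat with
        | refl => rfl
        | left _ h2 _ => exact absurd (hex.trans h2) (not_le.2 (sig_lt_ext hΦ hε hokx))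
        | right _ h2 _ => exact absurd (hex.trans h2) (not_le.2 (sig_lt_ext hΦ hε hokx))
      · exact At.refl
  | node a b iha ihb =>
    rw [th_node] at hat
    cases hat with
    | refl =>
      refine ⟨node a b, hp, rfl, ?_, fun y _ => At.refl⟩
      rw [← th_sig h hp]
      exact ho.1
    | left h1 hs hne =>
      obtain ⟨q, h2, h3, h4, h5⟩ := iha (leaves_left hp) h1
      rw [← th_node, th_sig h hp] at hs hne
      exact ⟨q, h2, h3, h4, fun y hy => At.left (h5 y hy) hs fun hcon =>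
        hne ⟨by rw [hy, hcon.1], hcon.2⟩⟩
    | right h1 hs hne =>
      obtain ⟨q, h2, h3, h4, h5⟩ := ihb (leaves_right hp) h1
      rw [← th_node, th_sig h hp] at hs hne
      exact ⟨q, h2, h3, h4, fun y hy => At.right (h5 y hy) hs fun hcon =>
        hne ⟨by rw [hy, hcon.1], hcon.2⟩⟩

/-- **From the real world to the world of lines.** -/
theorem hit_of_th (hΦ : IsPotential Φ) (hε : 0 < ε) (h : Setup Φ ε L U F r t) {p X : CTree}
    {s : ℝ} (hs : s ≤ t) (hp : p.leaves ⊆ lwd Φ ε r U F) (hok : ok Φ ε (th Φ ε r F p))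
    (hd : p.depth ≤ L)
    (hno : ∀ X s', s' < s → hit Φ ε (th Φ ε r F p) X s' → ¬alive Φ ε L (U ∪ lvs F) X s')
    (hX : alive Φ ε L (U ∪ lvs F) X s) (hh : hit Φ ε (th Φ ε r F p) X s) :
    ∃ y, y.leaves ⊆ lwd Φ ε r U F ∧ X = th Φ ε r F y ∧ ext Φ ε y ≤ s ∧ hit Φ ε p y s := by
  obtain ⟨q', h1, h2⟩ := (hit_iff_at hΦ).1 hh
  obtain ⟨q, hq, rfl, hqs, hat⟩ := at_of_th hΦ hε h hp hX h1 h2
  have hql : live Φ ε L (U ∪ lvs F) (th Φ ε r F q) s :=
    ⟨th_leaves_wd h hq, h1.sub.ok hok, by
      have := h1.sub.depth_le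
      rw [th_depth h hp] at this
      exact this.trans hd, h2.1, fun X s' hs' hX' => hno X s' hs' (hit_of_at hΦ h1 hs' hX')⟩
  rcases alive_classify hΦ hε h hX with ⟨y, hy, hXy, hye⟩ | hleg
  · refine ⟨y, hy, hXy, hye, (hit_iff_at hΦ).2 ⟨q, hat y hXy, ?_⟩⟩
    rw [hXy] at h2
    exact own_of_th hΦ hε h hq hy hqs hye h2
  · exact absurd h2 (leg_not_own hΦ hε h hs hleg hX hq hql)

end Vale.Agent.P119.TF
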