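import Vale.Agent.P119.TF.Bad
import Vale.Agent.P119.TL.Part

/-!
# P119: TREES -> LINES, the partners of the legs, for a forest (`helper384`)

Forest version of `TL/Part.lean` (`helper119`).
-/

open MeasureTheory Filter Topology Set
open scoped ENNReal NNReal

noncomputable section

namespace Vale.Agent.P119.TF

open KU M M.CTree RB TL

variable {Φ : E3 → ℝ} {ε : ℝ} {L : ℕ} {U : Set Src} {F : Set CTree} {r : CTree → ℝ} {t : ℝ}

/-- A final history is not a proper subtree of another one. -/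
theorem ous_eq_of_sub (h : Setup Φ ε L U F r t) {x x' : CTree} (hx : x ∈ ous F)
    (hx' : x' ∈ ous F) (hs : Sub x' x) : x' = x := by
  obtain ⟨T, hT, hx⟩ := mem_ous.1 hx
  obtain ⟨T', hT', hx'⟩ := mem_ous.1 hx'
  have h1 : T = T' := by
    by_contra hne
    exact disjoint_left.1 (h.pw T hT T' hT' hne)
      (outs_leaves hx (hs.leaves_subset x'.root_mem_leaves)) (outs_leaves hx' x'.root_mem_leaves)
  subst h1
  exact outs_eq_of_sub (ok_T h hT) hx hx' hs

theorem stat_leg' (hΦ : IsPotential Φ) (hε : 0 < ε) (h : Setup Φ ε L U F r t) {x X : CTree}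
    {s : ℝ} (hx : x ∈ ous F) (hxs : s < r x) (hl : lives Φ ε L (U ∪ lvs F) X s)
    (hX : X.root = x.root) : X = cur Φ ε x s := by
  have h1 : stat Φ ε L (U ∪ lvs F) x.root s = some X :=
    (stat_eq_some_iff hΦ hε (wd_finite h)).2 ⟨hX, hl⟩
  have h2 : x.root.1 ≤ s := hX ▸ live.birth_le hΦ hε hl.live
  rw [stat_leg hΦ hε h hx hxs h2] at h1
  exact (Option.some_inj.1 h1).symm

/-- The current tree of a leg in a collision. -/
theorem leg_node (hΦ : IsPotential Φ) (hε : 0 < ε) (h : Setup Φ ε L U F r t) {x p q : CTree}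
    {s : ℝ} (hx : x ∈ ous F) (hxs : s < r x) (hl : lives Φ ε L (U ∪ lvs F) (node p q) s)
    (hp : p.root = x.root) (hs : s < ext Φ ε (node p q)) :
    Sub (node p q) x ∧ s < ext Φ ε x := by
  have h1 := stat_leg' hΦ hε h hx hxs hl hp
  refine ⟨h1 ▸ Spine.sub (cur_spine x s), ?_⟩
  by_contra hcon
  rw [not_lt] at hcon
  have h2 : cur Φ ε x s = x := cur_of_sig_le ((sig_le_ext hΦ hε (ok_out h hx)).trans hcon)
  rw [h2] at h1
  rw [h1] at hs
  exact absurd hs (not_lt.2 hcon)

/-- The partner of a leg belongs to `F`. -/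
theorem part_mem (hΦ : IsPotential Φ) (hε : 0 < ε) (h : Setup Φ ε L U F r t) {x : CTree}
    {b : Src} {s : ℝ} (hx : x ∈ ous F) (hxs : s < r x)
    (hp : part Φ ε L (U ∪ lvs F) s x.root b) : b ∈ lvs F := by
  obtain ⟨p, q, hp1, rfl, h1, h2, h3, h4, h5⟩ := part_spec hΦ hε (wd_finite h) hp
  obtain ⟨h6, -⟩ := leg_node hΦ hε h hx hxs h3 hp1 h5
  exact ous_leaves hx (h6.leaves_subset (Or.inr q.root_mem_leaves))

/-- **A leg and its partner are before their exits.** -/
theorem part_out (hΦ : IsPotential Φ) (hε : 0 < ε) (h : Setup Φ ε L U F r t) {x x' : CTree}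
    {s : ℝ} (hs : s ≤ t) (hx : x ∈ ous F) (hx' : x' ∈ ous F) (hxs : s < r x)
    (hp : part Φ ε L (U ∪ lvs F) s x.root x'.root) :
    s < ext Φ ε x ∧ s < ext Φ ε x' ∧ x.root.1 < s ∧ x'.root.1 < s := by
  obtain ⟨p, q, hp1, hq1, h1, h2, h3, h4, h5⟩ := part_spec hΦ hε (wd_finite h) hp
  obtain ⟨h6, h7⟩ := leg_node hΦ hε h hx hxs h3 hp1 h5
  have hb := births_lt hΦ hε h3.ok
  have h5' : s < ext Φ ε (node q p) := by rw [ext_swap hΦ p q]; exact h5
  refine ⟨h7, ?_, hp1 ▸ hb.1.trans_le h3.sig_le, hq1 ▸ hb.2.trans_le h3.sig_le⟩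
  rcases lt_or_ge s (r x') with h8 | h8
  · exact (leg_node hΦ hε h hx' h8 h4 hq1 h5').2
  · exfalso
    -- the tree of the partner comes from the world of lines
    have h9 := stat_out hΦ hε h hs hx' h8
    rw [h2] at h9
    obtain ⟨y, hy, hy'⟩ := Option.map_eq_some_iff.1 h9.symm
    have h10 := (stat_eq_some_iff hΦ hε (lwd_finite h)).1 hy
    have h11 : Sub x' (node q p) := by
      have h12 : Sub (fs Φ ε r F y.root) (th Φ ε r F y) := sub_sbs y.root_mem_leaves
      rwa [h10.1, fs_msrc h hx', hy'] at h12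
    have h13 : r x' < ext Φ ε (node q p) := h8.trans_lt h5'
    have h14 := h.le_r x' hx'
    have hcx := h6.card_le
    have hpc := p.card_pos
    have hqc := q.card_pos
    simp only [CTree.card] at hcx
    have key : Sub x' x → x'.card < x.card → False := by
      intro h15 h16
      have := ous_eq_of_sub h hx hx' h15
      rw [this] at h16
      exact lt_irrefl _ h16
    cases h11 with
    | refl => linarith
    | left _ h12 =>
      have h15 : Sub x' x := h12.trans ((Sub.right p (Sub.refl q)).trans h6)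
      exact key h15 (by have := h12.card_le; omega)
    | right _ h12 =>
      have h15 : Sub x' x := h12.trans ((Sub.left q (Sub.refl p)).trans h6)
      exact key h15 (by have := h12.card_le; omega)

end Vale.Agent.P119.TF
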