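import Vale.Agent.P119.TF.Lines
import Vale.Agent.P119.TL.Rho
import Vale.Agent.P119.TL.Touch
import Vale.Agent.P119.TL.Glue

/-!
# P119: TREES -> LINES, for a forest of alive trees with unexposed roots (`helper384`)

* `rhoF F ρ`: the births (`ext x`, and `ρ T` for the root of `T ∈ F`);
* `setup_rho`, `rep_rho`: the hypotheses and the conclusion of TREES -> LINES;
* `indep_of_NI`: the hypothesis `indep` from `NI`; histories with the same index have no common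
  particle (they belong to different trees);
* `rep_of_NI`.
-/

open MeasureTheory Filter Topology Set
open scoped ENNReal NNReal

noncomputable section

namespace Vale.Agent.P119.TF

open KU M M.CTree RB TL

variable {Φ : E3 → ℝ} {ε : ℝ} {L : ℕ} {U : Set Src} {F : Set CTree} {r : CTree → ℝ} {t : ℝ}
  {hΦ : IsPotential Φ} {hε : 0 < ε} {W W' : Finset Src} {ρ : CTree → ℝ}

/-- A forest. -/
theorem rep_of_setup (h : Setup Φ ε L U F r t)
    (hW : (W : Set Src) = U ∪ lvs F) (hV : (W' : Set Src) = lwd Φ ε r U F)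
    (h0 : ∀ a ∈ W, 0 ≤ a.1) (hrt : ∀ x ∈ ous F, r x ≤ t)
    (hR : ∀ x ∈ ous F, ∀ s < r x, ¬(Y Φ ε L hΦ hε).Exp W x.root s) :
    Rep Φ ε L hΦ hε W W' (fs Φ ε r F) t := by
  have hmem : ∀ a ∈ W', a ∈ lwd Φ ε r U F := fun a ha => by
    rw [← hV]; exact Finset.mem_coe.2 ha
  refine ⟨TF.lines h hW hV h0 hrt hR, fun a ha => ?_, fun a ha => ?_,
    fun a ha => fs_ln h (hmem a ha), fun a ha => fs_ext h (hmem a ha), fun a ha => ?_,
    fun a ha s hst hs hb => ?_⟩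
  · rw [hW]
    refine (fs_leaves h (hmem a ha)).trans ?_
    rintro σ (⟨-, hσ⟩ | hσ)
    · exact Or.inl hσ
    · exact Or.inr hσ
  · rcases hmem a ha with ha' | ⟨x, hx, rfl⟩
    · rw [fs_of_mem h ha']
      refine h0 a ?_
      rw [← Finset.mem_coe, hW]
      exact Or.inl ha'
    · rw [fs_msrc h hx]
      exact ok_out h hx
  · rcases hmem a ha with ha' | ⟨x, hx, rfl⟩
    · exact Or.inl (fs_of_mem h ha')
    · exact Or.inr (hrt x hx)
  · rcases hmem a ha with ha' | ⟨x, hx, rfl⟩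
    · rw [fs_of_mem h ha'] at hb
      exact absurd hb (not_le.2 hs)
    · rw [fs_msrc h hx] at hb ⊢
      rw [hW]
      exact stat_leg hΦ hε h hx hs hb

/-! ### The births -/

open Classical in
/-- The births: at the exits, except for the roots, which are born at the times `ρ T`. -/
def rhoF (Φ : E3 → ℝ) (ε : ℝ) (F : Set CTree) (ρ : CTree → ℝ) (x : CTree) : ℝ :=
  if x ∈ F then ρ x else ext Φ ε x

theorem rhoF_mem {T : CTree} (hT : T ∈ F) : rhoF Φ ε F ρ T = ρ T := by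
  classical
  unfold rhoF
  rw [if_pos hT]

theorem rhoF_exs (pw : ∀ T ∈ F, ∀ T' ∈ F, T ≠ T' → Disjoint T.leaves T'.leaves) {T x : CTree}
    (hok : ok Φ ε T) (hT : T ∈ F) (hx : x ∈ exs T) : rhoF Φ ε F ρ x = ext Φ ε x := by
  classical
  unfold rhoF
  rw [if_neg]
  intro hxF
  by_cases hne : T = x
  · subst hne
    exact exs_root_ne hok hx rfl
  · exact disjoint_left.1 (pw T hT x hxF hne) (exs_leaves hx x.root_mem_leaves) x.root_mem_leaves

/-- The births are at the exits. -/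
theorem rhoF_ext (x : CTree) : rhoF Φ ε F (ext Φ ε) x = ext Φ ε x := by
  classical
  unfold rhoF
  split_ifs <;> rfl

section rho

/-- A final history is a tree of `F` or an exhaust. -/
theorem ous_cases {x : CTree} (hx : x ∈ ous F) : x ∈ F ∨ ∃ T ∈ F, x ∈ exs T := by
  obtain ⟨T, hT, rfl | hx⟩ := mem_ous.1 hx
  · exact Or.inl hT
  · exact Or.inr ⟨T, hT, hx⟩

variable (pw : ∀ T ∈ F, ∀ T' ∈ F, T ≠ T' → Disjoint T.leaves T'.leaves)
  (hT : ∀ T ∈ F, alive Φ ε L (U ∪ lvs F) T (ρ T))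

include pw hT

theorem le_rhoF {x : CTree} (hx : x ∈ ous F) : ext Φ ε x ≤ rhoF Φ ε F ρ x := by
  rcases ous_cases hx with h | ⟨T, h, h'⟩
  · rw [rhoF_mem h]
    exact (alive_pre (hT x h)).ext_le
  · rw [rhoF_exs pw (alive_pre (hT T h)).ok h h']

theorem rhoF_le (hΦ : IsPotential Φ) (hε : 0 < ε) (hρ : ∀ T ∈ F, ρ T ≤ t) {x : CTree}
    (hx : x ∈ ous F) : rhoF Φ ε F ρ x ≤ t := by
  rcases ous_cases hx with h | ⟨T, h, h'⟩
  · rw [rhoF_mem h]
    exact hρ x h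
  · rw [rhoF_exs pw (alive_pre (hT T h)).ok h h']
    exact ((out_ext_le hΦ hε (alive_pre (hT T h)).ok (Or.inr h')).trans
      (alive_pre (hT T h)).ext_le).trans (hρ T h)

/-- The particles of `F` are not exposed before the births. -/
theorem not_exp_rhoF (hW : (W : Set Src) = U ∪ lvs F)
    (hE : ∀ T ∈ F, ∀ s < ρ T, ¬(Y Φ ε L hΦ hε).Exp W T.root s) :
    ∀ x ∈ ous F, ∀ s < rhoF Φ ε F ρ x, ¬(Y Φ ε L hΦ hε).Exp W x.root s := by
  intro x hx s hs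
  rcases ous_cases hx with h | ⟨T, h, h'⟩
  · rw [rhoF_mem h] at hs
    exact hE x h s hs
  · rw [rhoF_exs pw (alive_pre (hT T h)).ok h h'] at hs
    have h1 := hT T h
    rw [← hW] at h1
    exact leg_lemma (u := ρ T) h1 (fun s hs => hE T h s (hs.trans_le (alive_pre h1).ext_le)) h' hs

/-- **The hypotheses of TREES -> LINES** for alive trees with unexposed roots. -/
theorem setup_rhoF (hF : F.Finite) (hU : U.Finite) (hd : Disjoint U (lvs F))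
    (hW : (W : Set Src) = U ∪ lvs F)
    (hl : ∀ T ∈ F, ρ T = ext Φ ε T ∨ lives Φ ε L (U ∪ lvs F) T (ρ T))
    (hE : ∀ T ∈ F, ∀ s < ρ T, ¬(Y Φ ε L hΦ hε).Exp W T.root s)
    (inj : InjOn (msrc Φ ε (rhoF Φ ε F ρ)) (ous F))
    (fresh : ∀ x ∈ ous F, msrc Φ ε (rhoF Φ ε F ρ) x ∉ U)
    (indep : ∀ p y s, s ≤ t → live Φ ε L (lwd Φ ε (rhoF Φ ε F ρ) U F) p s →
      alive Φ ε L (lwd Φ ε (rhoF Φ ε F ρ) U F) y s → Disjoint p.leaves y.leaves →
      hit Φ ε p y s →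
      Disjoint (th Φ ε (rhoF Φ ε F ρ) F p).leaves (th Φ ε (rhoF Φ ε F ρ) F y).leaves) :
    Setup Φ ε L U F (rhoF Φ ε F ρ) t := by
  have hWf : (U ∪ lvs F).Finite := hU.union (lvs_finite hF)
  refine Setup.of_not_bad hΦ hε hF pw hU hd inj fresh (fun x hx => le_rhoF pw hT hx)
    (fun x hx => ?_) (fun x hx => ?_) (fun x hx u hu _ hbad => ?_) indep
  · rcases ous_cases hx with h | ⟨T, h, h'⟩
    · rw [rhoF_mem h]
      exact hT x h
    · rw [rhoF_exs pw (alive_pre (hT T h)).ok h h']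
      exact out_alive hΦ hε hWf (hT T h) h'
  · rcases ous_cases hx with h | ⟨T, h, h'⟩
    · rw [rhoF_mem h]
      exact hl x h
    · exact Or.inl (rhoF_exs pw (alive_pre (hT T h)).ok h h')
  · rw [← hW] at hbad
    exact not_exp_rhoF pw hT hW hE x hx u hu (exp_of_badi hbad le_rfl)

/-- **TREES -> LINES** for alive trees with unexposed roots. -/
theorem rep_rhoF (hF : F.Finite) (hd : Disjoint U (lvs F))
    (hW : (W : Set Src) = U ∪ lvs F) (hW' : (W' : Set Src) = lwd Φ ε (rhoF Φ ε F ρ) U F)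
    (h0 : ∀ a ∈ W, 0 ≤ a.1)
    (hl : ∀ T ∈ F, ρ T = ext Φ ε T ∨ lives Φ ε L (U ∪ lvs F) T (ρ T)) (hρ : ∀ T ∈ F, ρ T ≤ t)
    (hE : ∀ T ∈ F, ∀ s < ρ T, ¬(Y Φ ε L hΦ hε).Exp W T.root s)
    (inj : InjOn (msrc Φ ε (rhoF Φ ε F ρ)) (ous F))
    (fresh : ∀ x ∈ ous F, msrc Φ ε (rhoF Φ ε F ρ) x ∉ U)
    (indep : ∀ p y s, s ≤ t → live Φ ε L (lwd Φ ε (rhoF Φ ε F ρ) U F) p s →
      alive Φ ε L (lwd Φ ε (rhoF Φ ε F ρ) U F) y s → Disjoint p.leaves y.leaves →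
      hit Φ ε p y s →
      Disjoint (th Φ ε (rhoF Φ ε F ρ) F p).leaves (th Φ ε (rhoF Φ ε F ρ) F y).leaves) :
    Rep Φ ε L hΦ hε W W' (fs Φ ε (rhoF Φ ε F ρ) F) t := by
  have hU : U.Finite := W.finite_toSet.subset (by rw [hW]; exact subset_union_left)
  exact rep_of_setup (setup_rhoF pw hT hF hU hd hW hl hE inj fresh indep) hW hW' h0
    (fun _ hx => rhoF_le pw hT hΦ hε hρ hx) (not_exp_rhoF pw hT hW hE)

end rho

/-! ### The hypothesis `indep` -/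

theorem fs_of_mem' (fresh : ∀ x ∈ ous F, msrc Φ ε r x ∉ U) {σ : Src} (hσ : σ ∈ U) :
    fs Φ ε r F σ = leaf σ := by
  classical
  unfold fs
  rw [dif_neg]
  rintro ⟨x, hx, rfl⟩
  exact fresh x hx hσ

theorem fs_msrc' (inj : InjOn (msrc Φ ε r) (ous F)) {x : CTree} (hx : x ∈ ous F) :
    fs Φ ε r F (msrc Φ ε r x) = x := by
  classical
  have h1 : ∃ x' ∈ ous F, msrc Φ ε r x' = msrc Φ ε r x := ⟨x, hx, rfl⟩
  unfold fs
  rw [dif_pos h1]
  exact inj h1.choose_spec.1 hx h1.choose_spec.2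

theorem th_leaves_cases (inj : InjOn (msrc Φ ε r) (ous F))
    (fresh : ∀ x ∈ ous F, msrc Φ ε r x ∉ U) {y : CTree} (hy : y.leaves ⊆ lwd Φ ε r U F) {τ : Src}
    (hτ : τ ∈ (th Φ ε r F y).leaves) : (τ ∈ y.leaves ∧ τ ∈ U) ∨
      ∃ x ∈ ous F, msrc Φ ε r x ∈ y.leaves ∧ τ ∈ x.leaves := by
  have h1 : (th Φ ε r F y).leaves = ⋃ σ ∈ y.leaves, (fs Φ ε r F σ).leaves := sbs_leaves y
  rw [h1] at hτ
  obtain ⟨σ, hσ, hτ⟩ := mem_iUnion₂.1 hτ
  rcases hy hσ with h2 | ⟨x, hx, rfl⟩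
  · rw [fs_of_mem' fresh h2] at hτ
    rw [mem_singleton_iff.1 hτ]
    exact Or.inl ⟨hσ, h2⟩
  · rw [fs_msrc' inj hx] at hτ
    exact Or.inr ⟨x, hx, hσ, hτ⟩

section glue

variable {ι : Type*} [DecidableEq ι] {Wc : Finset ι → Set Src} {K J : Finset ι}

/-- **The hypothesis `indep`**: the world of lines is a world of a cube without interaction,
histories with the same index have no common particle. -/
theorem indep_of_NI (hΦ : IsPotential Φ) (hε : 0 < ε) (hC : CubeW Wc K)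
    (hNI : NI Φ ε L Wc K t) (hJ : J ⊆ K) (hl : lwd Φ ε r U F = Wc J) (i : CTree → ι)
    (hi : ∀ x ∈ ous F, Idx Wc K (i x) (msrc Φ ε r x))
    (hpair : ∀ x ∈ ous F, ∀ x' ∈ ous F, x ≠ x' → i x = i x' → Disjoint x.leaves x'.leaves)
    (hd : Disjoint U (lvs F)) (inj : InjOn (msrc Φ ε r) (ous F))
    (fresh : ∀ x ∈ ous F, msrc Φ ε r x ∉ U) (p y : CTree) (s : ℝ) (hs : s ≤ t)
    (hp : live Φ ε L (lwd Φ ε r U F) p s) (hy : alive Φ ε L (lwd Φ ε r U F) y s)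
    (hdj : Disjoint p.leaves y.leaves) (hh : hit Φ ε p y s) :
    Disjoint (th Φ ε r F p).leaves (th Φ ε r F y).leaves := by
  rw [disjoint_left] at hdj ⊢
  have hUF := disjoint_left.1 hd
  intro τ h1 h2
  rcases th_leaves_cases inj fresh hp.sub h1 with ⟨h3, h4⟩ | ⟨x, hx, h3, h4⟩ <;>
  rcases th_leaves_cases inj fresh (alive_pre hy).sub h2 with ⟨h5, h6⟩ | ⟨x', hx', h5, h6⟩
  · exact hdj h3 h5
  · exact hUF h4 (ous_leaves hx' h6)
  · exact hUF h6 (ous_leaves hx h4)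
  · have hne : x ≠ x' := by
      rintro rfl
      exact hdj h3 h5
    have hij : i x ≠ i x' := fun he => disjoint_left.1 (hpair x hx x' hx' hne he) h4 h6
    rw [hl] at hp hy
    exact not_hit_of_NI hΦ hε hC hNI hJ hs hp hy h3 (hi x hx) h5 (hi x' hx') hij hh

/-- **TREES -> LINES in a cube without interaction.** -/
theorem rep_of_NI (hC : CubeW Wc K) (hNI : NI Φ ε L Wc K t) (hJ : J ⊆ K) (i : CTree → ι)
    (hi : ∀ x ∈ ous F, Idx Wc K (i x) (msrc Φ ε (rhoF Φ ε F ρ) x))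
    (hpair : ∀ x ∈ ous F, ∀ x' ∈ ous F, x ≠ x' → i x = i x' → Disjoint x.leaves x'.leaves)
    (hW' : (W' : Set Src) = Wc J) (hl : lwd Φ ε (rhoF Φ ε F ρ) U F = Wc J)
    (hF : F.Finite) (pw : ∀ T ∈ F, ∀ T' ∈ F, T ≠ T' → Disjoint T.leaves T'.leaves)
    (hd : Disjoint U (lvs F)) (hW : (W : Set Src) = U ∪ lvs F) (h0 : ∀ a ∈ W, 0 ≤ a.1)
    (inj : InjOn (msrc Φ ε (rhoF Φ ε F ρ)) (ous F))
    (fresh : ∀ x ∈ ous F, msrc Φ ε (rhoF Φ ε F ρ) x ∉ U)
    (hT : ∀ T ∈ F, alive Φ ε L (U ∪ lvs F) T (ρ T))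
    (hlv : ∀ T ∈ F, ρ T = ext Φ ε T ∨ lives Φ ε L (U ∪ lvs F) T (ρ T))
    (hρ : ∀ T ∈ F, ρ T ≤ t)
    (hE : ∀ T ∈ F, ∀ s < ρ T, ¬(Y Φ ε L hΦ hε).Exp W T.root s) :
    Rep Φ ε L hΦ hε W W' (fs Φ ε (rhoF Φ ε F ρ) F) t :=
  rep_rhoF pw hT hF hd hW (hW'.trans hl.symm) h0 hlv hρ hE inj fresh
    (indep_of_NI hΦ hε hC hNI hJ hl i hi hpair hd inj fresh)

end glue

end Vale.Agent.P119.TF
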