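import Vale.Agent.P119.TL.Setup

/-!
# P119: TREES -> LINES, the world of lines of a forest (`helper384`)

Forest version of `TL/Setup.lean` (`helper119`).  `F` is a finite set of trees with pairwise disjoint
particles which are alive in the world `U ∪ lvs F`.  In the world
`lwd U F = U ∪ {msrc x | x ∈ ous F}` the particles of the trees are replaced by sources, born at the
times `r x ≥ ext x`, on their lines.  The lines of different trees may interact.
-/

open MeasureTheory Filter Topology Set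
open scoped ENNReal NNReal

noncomputable section

namespace Vale.Agent.P119.TF

open KU M M.CTree TL

variable {Φ : E3 → ℝ} {ε : ℝ} {L : ℕ}

/-- The particles of the trees of `F`. -/
def lvs (F : Set CTree) : Set Src := ⋃ T ∈ F, T.leaves

/-- The final histories of the particles of the trees of `F`. -/
def ous (F : Set CTree) : Set CTree := ⋃ T ∈ F, outs T

theorem mem_lvs {F : Set CTree} {σ : Src} : σ ∈ lvs F ↔ ∃ T ∈ F, σ ∈ T.leaves := by
  unfold lvs
  simp only [mem_iUnion, exists_prop]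

theorem mem_ous {F : Set CTree} {x : CTree} : x ∈ ous F ↔ ∃ T ∈ F, x ∈ outs T := by
  unfold ous
  simp only [mem_iUnion, exists_prop]

theorem self_mem_ous {F : Set CTree} {T : CTree} (h : T ∈ F) : T ∈ ous F :=
  mem_ous.2 ⟨T, h, Or.inl rfl⟩

theorem exs_mem_ous {F : Set CTree} {T x : CTree} (h : T ∈ F) (hx : x ∈ exs T) : x ∈ ous F :=
  mem_ous.2 ⟨T, h, Or.inr hx⟩

theorem leaves_sub_lvs {F : Set CTree} {T : CTree} (h : T ∈ F) : T.leaves ⊆ lvs F := fun _ hσ =>
  mem_lvs.2 ⟨T, h, hσ⟩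

theorem ous_leaves {F : Set CTree} {x : CTree} (hx : x ∈ ous F) : x.leaves ⊆ lvs F := by
  obtain ⟨T, hT, hx⟩ := mem_ous.1 hx
  exact (outs_leaves hx).trans (leaves_sub_lvs hT)

theorem exists_ous {F : Set CTree} {σ : Src} (h : σ ∈ lvs F) : ∃ x ∈ ous F, x.root = σ := by
  obtain ⟨T, hT, h⟩ := mem_lvs.1 h
  obtain ⟨x, hx, h1⟩ := exists_out h
  exact ⟨x, mem_ous.2 ⟨T, hT, hx⟩, h1⟩

theorem ous_finite {F : Set CTree} (hF : F.Finite) : (ous F).Finite :=
  hF.biUnion fun T _ => outs_finite T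

theorem lvs_finite {F : Set CTree} (hF : F.Finite) : (lvs F).Finite :=
  hF.biUnion fun T _ => T.leaves_finite

/-- The world of the lines of `F`. -/
def lwd (Φ : E3 → ℝ) (ε : ℝ) (r : CTree → ℝ) (U : Set Src) (F : Set CTree) : Set Src :=
  U ∪ msrc Φ ε r '' ous F

open Classical in
/-- The substitution on the sources. -/
def fs (Φ : E3 → ℝ) (ε : ℝ) (r : CTree → ℝ) (F : Set CTree) (σ : Src) : CTree :=
  if h : ∃ x ∈ ous F, msrc Φ ε r x = σ then h.choose else leaf σ

/-- The histories are put back. -/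
def th (Φ : E3 → ℝ) (ε : ℝ) (r : CTree → ℝ) (F : Set CTree) (y : CTree) : CTree :=
  sbs (fs Φ ε r F) y

/-- The legs of `F`: the proper subtrees, and the final histories before the births. -/
def Leg (r : CTree → ℝ) (F : Set CTree) (X : CTree) (s : ℝ) : Prop :=
  (∃ T ∈ F, Sub X T ∧ X ≠ T) ∨ (X ∈ ous F ∧ s < r X)

/-- The hypotheses of TREES -> LINES up to the time `t`. -/
structure Setup (Φ : E3 → ℝ) (ε : ℝ) (L : ℕ) (U : Set Src) (F : Set CTree) (r : CTree → ℝ)
    (t : ℝ) : Prop where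
  /-- the forest is finite -/
  finF : F.Finite
  /-- the trees have no common particle -/
  pw : ∀ T ∈ F, ∀ T' ∈ F, T ≠ T' → Disjoint T.leaves T'.leaves
  /-- the environment is finite -/
  fin : U.Finite
  /-- the environment does not contain the particles of the trees -/
  disj : Disjoint U (lvs F)
  /-- the new sources are distinct -/
  inj : InjOn (msrc Φ ε r) (ous F)
  /-- the new sources are not in the environment -/
  fresh : ∀ x ∈ ous F, msrc Φ ε r x ∉ U
  /-- the sources are born after the exits -/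
  le_r : ∀ x ∈ ous F, ext Φ ε x ≤ r x
  /-- the histories survive until the births -/
  alive : ∀ x ∈ ous F, alive Φ ε L (U ∪ lvs F) x (r x)
  /-- if the birth is later than the exit then there is no hit at the birth -/
  lives : ∀ x ∈ ous F, r x = ext Φ ε x ∨ lives Φ ε L (U ∪ lvs F) x (r x)
  /-- the legs of `F` make no contact with a colliding pair -/
  legs : ∀ X p s, s ≤ t → Leg r F X s → M.alive Φ ε L (U ∪ lvs F) X s →
    live Φ ε L (U ∪ lvs F) p s → s < ext Φ ε p → ¬hit Φ ε p X s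
  /-- in the world of lines there is no contact between two descendants of one tree -/
  indep : ∀ p y s, s ≤ t → live Φ ε L (lwd Φ ε r U F) p s → M.alive Φ ε L (lwd Φ ε r U F) y s →
    Disjoint p.leaves y.leaves → hit Φ ε p y s →
    Disjoint (th Φ ε r F p).leaves (th Φ ε r F y).leaves

variable {U : Set Src} {F : Set CTree} {r : CTree → ℝ} {t : ℝ}

theorem lwd_finite (h : Setup Φ ε L U F r t) : (lwd Φ ε r U F).Finite :=
  h.fin.union ((ous_finite h.finF).image _)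

theorem wd_finite (h : Setup Φ ε L U F r t) : (U ∪ lvs F).Finite :=
  h.fin.union (lvs_finite h.finF)

theorem fs_msrc (h : Setup Φ ε L U F r t) {x : CTree} (hx : x ∈ ous F) :
    fs Φ ε r F (msrc Φ ε r x) = x := by
  classical
  have h1 : ∃ x' ∈ ous F, msrc Φ ε r x' = msrc Φ ε r x := ⟨x, hx, rfl⟩
  unfold fs
  rw [dif_pos h1]
  exact h.inj h1.choose_spec.1 hx h1.choose_spec.2

theorem fs_of_mem (h : Setup Φ ε L U F r t) {σ : Src} (hσ : σ ∈ U) : fs Φ ε r F σ = leaf σ := by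
  classical
  unfold fs
  rw [dif_neg]
  rintro ⟨x, hx, rfl⟩
  exact h.fresh x hx hσ

theorem ok_T (h : Setup Φ ε L U F r t) {T : CTree} (hT : T ∈ F) : ok Φ ε T :=
  (alive_pre (h.alive T (self_mem_ous hT))).ok

theorem ok_out (h : Setup Φ ε L U F r t) {x : CTree} (hx : x ∈ ous F) : ok Φ ε x :=
  (alive_pre (h.alive x hx)).ok

theorem fs_ln (h : Setup Φ ε L U F r t) {σ : Src} (hσ : σ ∈ lwd Φ ε r U F) :
    ln Φ ε (fs Φ ε r F σ) = σ.2.1 := by
  rcases hσ with hσ | ⟨x, hx, rfl⟩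
  · rw [fs_of_mem h hσ]; rfl
  · rw [fs_msrc h hx]; rfl

theorem fs_depth (h : Setup Φ ε L U F r t) {σ : Src} (hσ : σ ∈ lwd Φ ε r U F) :
    (fs Φ ε r F σ).depth = σ.2.2 := by
  rcases hσ with hσ | ⟨x, hx, rfl⟩
  · rw [fs_of_mem h hσ]; rfl
  · rw [fs_msrc h hx]; rfl

theorem fs_ext (h : Setup Φ ε L U F r t) {σ : Src} (hσ : σ ∈ lwd Φ ε r U F) :
    ext Φ ε (fs Φ ε r F σ) ≤ σ.1 := by
  rcases hσ with hσ | ⟨x, hx, rfl⟩
  · rw [fs_of_mem h hσ]; exact le_rfl
  · rw [fs_msrc h hx]; exact h.le_r x hx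

theorem fs_leaves (h : Setup Φ ε L U F r t) {σ : Src} (hσ : σ ∈ lwd Φ ε r U F) :
    (fs Φ ε r F σ).leaves ⊆ ({σ} ∩ U) ∪ lvs F := by
  rcases hσ with hσ | ⟨x, hx, rfl⟩
  · rw [fs_of_mem h hσ]
    intro τ hτ
    have : τ = σ := hτ
    exact Or.inl ⟨this, this ▸ hσ⟩
  · rw [fs_msrc h hx]
    exact (ous_leaves hx).trans subset_union_right

variable {y : CTree}

theorem th_node (a b : CTree) : th Φ ε r F (node a b) = node (th Φ ε r F a) (th Φ ε r F b) := rfl

theorem th_leaf_msrc (h : Setup Φ ε L U F r t) {x : CTree} (hx : x ∈ ous F) :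
    th Φ ε r F (leaf (msrc Φ ε r x)) = x := fs_msrc h hx

theorem th_ln (h : Setup Φ ε L U F r t) (hy : y.leaves ⊆ lwd Φ ε r U F) :
    ln Φ ε (th Φ ε r F y) = ln Φ ε y := sbs_ln fun _ hσ => fs_ln h (hy hσ)

theorem th_depth (h : Setup Φ ε L U F r t) (hy : y.leaves ⊆ lwd Φ ε r U F) :
    (th Φ ε r F y).depth = y.depth := sbs_depth fun _ hσ => fs_depth h (hy hσ)

theorem th_of_subset (h : Setup Φ ε L U F r t) (hy : y.leaves ⊆ U) : th Φ ε r F y = y := by
  have h1 : sbs (fs Φ ε r F) y = sbs leaf y := sbs_congr fun σ hσ => fs_of_mem h (hy hσ)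
  exact h1.trans (sbs_leaf y)

theorem leaves_left {a b : CTree} {W : Set Src} (h : (node a b).leaves ⊆ W) : a.leaves ⊆ W :=
  fun _ hx => h (Or.inl hx)

theorem leaves_right {a b : CTree} {W : Set Src} (h : (node a b).leaves ⊆ W) : b.leaves ⊆ W :=
  fun _ hx => h (Or.inr hx)

theorem th_sig (h : Setup Φ ε L U F r t) {a b : CTree} (hy : (node a b).leaves ⊆ lwd Φ ε r U F) :
    sig Φ ε (th Φ ε r F (node a b)) = sig Φ ε (node a b) := by
  change hitT ε (ln Φ ε (th Φ ε r F a), ln Φ ε (th Φ ε r F b)) = hitT ε (ln Φ ε a, ln Φ ε b)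
  rw [th_ln h (leaves_left hy), th_ln h (leaves_right hy)]

theorem th_ext (h : Setup Φ ε L U F r t) {a b : CTree} (hy : (node a b).leaves ⊆ lwd Φ ε r U F) :
    ext Φ ε (th Φ ε r F (node a b)) = ext Φ ε (node a b) := by
  change sepT Φ ε (ln Φ ε (th Φ ε r F a), ln Φ ε (th Φ ε r F b)) = sepT Φ ε (ln Φ ε a, ln Φ ε b)
  rw [th_ln h (leaves_left hy), th_ln h (leaves_right hy)]

theorem th_st_node (h : Setup Φ ε L U F r t) {a b : CTree}
    (hy : (node a b).leaves ⊆ lwd Φ ε r U F) (s : ℝ) :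
    st Φ ε (th Φ ε r F (node a b)) s = st Φ ε (node a b) s := by
  change (pairLine Φ ε (ln Φ ε (th Φ ε r F a), ln Φ ε (th Φ ε r F b)) s).1 =
    (pairLine Φ ε (ln Φ ε a, ln Φ ε b) s).1
  rw [th_ln h (leaves_left hy), th_ln h (leaves_right hy)]

theorem th_ext_le (h : Setup Φ ε L U F r t) (hy : y.leaves ⊆ lwd Φ ε r U F) :
    ext Φ ε (th Φ ε r F y) ≤ ext Φ ε y := by
  cases y with
  | leaf σ => exact fs_ext h (hy (mem_singleton σ))
  | node a b => exact (th_ext h hy).le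

theorem th_sig_le (hΦ : IsPotential Φ) (hε : 0 < ε) (h : Setup Φ ε L U F r t)
    (hy : y.leaves ⊆ lwd Φ ε r U F) : sig Φ ε (th Φ ε r F y) ≤ sig Φ ε y := by
  cases y with
  | leaf σ =>
    refine le_trans ?_ (fs_ext h (hy (mem_singleton σ)))
    change sig Φ ε (fs Φ ε r F σ) ≤ _
    rcases hy (mem_singleton σ) with hσ | ⟨x, hx, rfl⟩
    · rw [fs_of_mem h hσ]; exact le_rfl
    · rw [fs_msrc h hx]; exact sig_le_ext hΦ hε (ok_out h hx)
  | node a b => exact (th_sig h hy).le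

theorem th_leaves (h : Setup Φ ε L U F r t) (hy : y.leaves ⊆ lwd Φ ε r U F) :
    (th Φ ε r F y).leaves ⊆ (y.leaves ∩ U) ∪ lvs F := by
  intro τ hτ
  have h1 : (th Φ ε r F y).leaves = ⋃ σ ∈ y.leaves, (fs Φ ε r F σ).leaves := sbs_leaves y
  rw [h1] at hτ
  obtain ⟨σ, hσ, hτ⟩ := mem_iUnion₂.1 hτ
  rcases fs_leaves h (hy hσ) hτ with h2 | h2
  · have : τ = σ := h2.1
    exact Or.inl ⟨this ▸ hσ, h2.2⟩
  · exact Or.inr h2

theorem th_leaves_wd (h : Setup Φ ε L U F r t) (hy : y.leaves ⊆ lwd Φ ε r U F) :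
    (th Φ ε r F y).leaves ⊆ U ∪ lvs F :=
  (th_leaves h hy).trans (union_subset_union_left _ inter_subset_right)

/-- The leaves of `y` in `U` are leaves of `th y`. -/
theorem mem_th_leaves (h : Setup Φ ε L U F r t) {σ : Src} (hσ : σ ∈ y.leaves) (hU : σ ∈ U) :
    σ ∈ (th Φ ε r F y).leaves := by
  have h1 : (th Φ ε r F y).leaves = ⋃ σ ∈ y.leaves, (fs Φ ε r F σ).leaves := sbs_leaves y
  rw [h1]
  refine mem_iUnion₂.2 ⟨σ, hσ, ?_⟩
  rw [fs_of_mem h hU]
  exact mem_singleton σ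

/-- If `th y` and `th y'` have no common particle then `y` and `y'` have none. -/
theorem disjoint_of_th {y' : CTree}
    (hd : Disjoint (th Φ ε r F y).leaves (th Φ ε r F y').leaves) :
    Disjoint y.leaves y'.leaves := by
  rw [disjoint_left] at hd ⊢
  intro σ h1 h2
  have e1 : (th Φ ε r F y).leaves = ⋃ σ ∈ y.leaves, (fs Φ ε r F σ).leaves := sbs_leaves y
  have e2 : (th Φ ε r F y').leaves = ⋃ σ ∈ y'.leaves, (fs Φ ε r F σ).leaves := sbs_leaves y'
  have h3 := (fs Φ ε r F σ).root_mem_leaves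
  exact hd (e1 ▸ mem_iUnion₂.2 ⟨σ, h1, h3⟩) (e2 ▸ mem_iUnion₂.2 ⟨σ, h2, h3⟩)

/-- If `y` and `y'` have no common particle and one of them does not descend from `T`. -/
theorem disjoint_th (h : Setup Φ ε L U F r t) {y' : CTree} (hy : y.leaves ⊆ lwd Φ ε r U F)
    (hy' : y'.leaves ⊆ lwd Φ ε r U F) (hd : Disjoint y.leaves y'.leaves)
    (hU : y.leaves ⊆ U ∨ y'.leaves ⊆ U) :
    Disjoint (th Φ ε r F y).leaves (th Φ ε r F y').leaves := by
  have hUT := disjoint_left.1 h.disj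
  rw [disjoint_left] at hd ⊢
  intro σ h1 h2
  rcases hU with hU | hU
  · rw [th_of_subset h hU] at h1
    rcases th_leaves h hy' h2 with h3 | h3
    · exact hd h1 h3.1
    · exact hUT (hU h1) h3
  · rw [th_of_subset h hU] at h2
    rcases th_leaves h hy h1 with h3 | h3
    · exact hd h3.1 h2
    · exact hUT (hU h2) h3

/-- The current line is the same. -/
theorem th_st (hΦ : IsPotential Φ) (hε : 0 < ε) (h : Setup Φ ε L U F r t)
    (hy : y.leaves ⊆ lwd Φ ε r U F) {s : ℝ} (hs : sig Φ ε y ≤ s) :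
    st Φ ε (th Φ ε r F y) s = st Φ ε y s := by
  cases y with
  | leaf σ =>
    change st Φ ε (fs Φ ε r F σ) s = free s σ.2.1
    rcases hy (mem_singleton σ) with hσ | ⟨x, hx, rfl⟩
    · rw [fs_of_mem h hσ]; rfl
    · rw [fs_msrc h hx, st_after hΦ hε (ok_out h hx) ((h.le_r x hx).trans hs)]
      rfl
  | node a b => exact th_st_node h hy s

/-- `own` for the two worlds. -/
theorem own_of_th (hΦ : IsPotential Φ) (hε : 0 < ε) (h : Setup Φ ε L U F r t) {q : CTree}
    (hq : q.leaves ⊆ lwd Φ ε r U F) (hy : y.leaves ⊆ lwd Φ ε r U F) {s : ℝ}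
    (hsq : sig Φ ε q ≤ s) (hsy : ext Φ ε y ≤ s)
    (ho : own Φ ε (th Φ ε r F q) (th Φ ε r F y) s) : own Φ ε q y s := by
  obtain ⟨-, -, h3, h4⟩ := ho
  refine ⟨hsq, hsy, disjoint_of_th h3, ?_⟩
  rw [th_st hΦ hε h hq hsq, th_ln h hy] at h4
  refine h4.imp id ?_
  rintro ⟨h5, a, b, h6, h7⟩
  cases q with
  | leaf σ =>
    exfalso
    have h8 := (fs_ext h (hq (mem_singleton σ)))
    exact absurd h5 (not_lt.2 (h8.trans hsq))
  | node c d =>
    rw [th_ext h hq] at h5
    rw [th_node] at h6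
    injection h6 with h6 h8
    refine ⟨h5, c, d, rfl, ?_⟩
    have hdc : (node d c).leaves ⊆ lwd Φ ε r U F := union_subset (leaves_right hq) (leaves_left hq)
    rw [← h6, ← h8, ← th_node, th_st_node h hdc] at h7
    exact h7

theorem th_own (hΦ : IsPotential Φ) (hε : 0 < ε) (h : Setup Φ ε L U F r t) {q : CTree}
    (hq : q.leaves ⊆ lwd Φ ε r U F) (hy : y.leaves ⊆ lwd Φ ε r U F) {s : ℝ}
    (hd : Disjoint (th Φ ε r F q).leaves (th Φ ε r F y).leaves) (ho : own Φ ε q y s) :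
    own Φ ε (th Φ ε r F q) (th Φ ε r F y) s := by
  obtain ⟨h1, h2, h3, h4⟩ := ho
  refine ⟨(th_sig_le hΦ hε h hq).trans h1, (th_ext_le h hy).trans h2, hd, ?_⟩
  rw [th_st hΦ hε h hq h1, th_ln h hy]
  refine h4.imp id ?_
  rintro ⟨h5, a, b, rfl, h7⟩
  have hdc : (node b a).leaves ⊆ lwd Φ ε r U F := union_subset (leaves_right hq) (leaves_left hq)
  refine ⟨by rw [th_ext h hq]; exact h5, _, _, th_node a b, ?_⟩
  rw [← th_node, th_st_node h hdc]
  exact h7

end Vale.Agent.P119.TF
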